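import Vale.Agent.P268.T.H354.ZWin
import Vale.Agent.P268.T.H903.ZipDir

/-!
# P268, topological half: the second ZIP family

The ramp is changed from `K zY` to `K' s.2 i₀ / ‖s‖`, with constant data.
-/

set_option linter.unusedSectionVars false

namespace Vale.Agent.P268.T.Z354

open Set Filter Topology Metric Z293 Z903

variable {ι : Type*} [Fintype ι] [DecidableEq ι] {i₀ : ι}
variable {V A : Type*} [NormedAddCommGroup V] [InnerProductSpace ℝ V] [DecidableEq A] [Fintype A]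
variable {e : V} {ε R M K K' : ℝ} {j k : A} {b ν : A → (ι → ℝ) → V}

/-- The ramp of the second family. -/
noncomputable def g2 (i₀ : ι) (K K' : ℝ) (t : ℝ) (s : ℝ × (ι → ℝ)) : ℝ :=
  (1 - t) * (K * zY i₀ s) + t * (K' * (s.2 i₀ / ‖s‖))

/-- A constant family over any set. -/
theorem bData_const {T : Type*} [TopologicalSpace T] (h : BData e b ν) (s : Set T) :
    BFam s e (fun _ => b) (fun _ => ν) where
  cb := fun a => by
    have h2 : Continuous fun q : T × (ι → ℝ) => (((), q.2) : Unit × (ι → ℝ)) := by fun_prop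
    exact (h.cb a).comp h2.continuousOn fun x hx => ⟨mem_univ _, hx.2⟩
  cn := fun a => by
    have h2 : Continuous fun q : T × (ι → ℝ) => (((), q.2) : Unit × (ι → ℝ)) := by fun_prop
    exact (h.cn a).comp h2.continuousOn fun x hx => ⟨mem_univ _, hx.2⟩
  nn := fun _ _ a x hx => h.nn () (mem_univ _) a x hx
  inj := fun _ _ x hx => h.inj () (mem_univ _) x hx
  bh := fun _ _ a x hx => h.bh () (mem_univ _) a x hx
  nh := fun _ _ a x hx => h.nh () (mem_univ _) a x hx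

theorem continuousAt_zN {s : ℝ × (ι → ℝ)} (hs : s ≠ 0) :
    ContinuousAt (fun s : ℝ × (ι → ℝ) => s.2 i₀ / ‖s‖) s :=
  (continuous_co i₀).continuousAt.div continuous_norm.continuousAt (norm_ne_zero_iff.mpr hs)

theorem continuousOn_g2 (K K' : ℝ) :
    ContinuousOn (fun q : ℝ × (ℝ × (ι → ℝ)) => g2 i₀ K K' q.1 q.2)
      (Icc 0 1 ×ˢ {x | x ≠ 0}) := by
  intro q hq
  have hq2 : q.2 ≠ 0 := hq.2
  have h1 : ContinuousAt (fun q : ℝ × (ℝ × (ι → ℝ)) => zY i₀ q.2) q :=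
    ContinuousAt.comp (f := fun q : ℝ × (ℝ × (ι → ℝ)) => q.2) (continuousAt_zY hq2)
      continuous_snd.continuousAt
  have h2 : ContinuousAt (fun q : ℝ × (ℝ × (ι → ℝ)) => q.2.2 i₀ / ‖q.2‖) q :=
    ContinuousAt.comp (f := fun q : ℝ × (ℝ × (ι → ℝ)) => q.2) (continuousAt_zN hq2)
      continuous_snd.continuousAt
  have h3 : ContinuousAt (fun q : ℝ × (ℝ × (ι → ℝ)) => q.1) q := continuous_fst.continuousAt
  exact (((continuousAt_const.sub h3).mul (continuousAt_const.mul h1)).add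
    (h3.mul (continuousAt_const.mul h2))).continuousWithinAt

theorem g2_smul (K K' t : ℝ) {l : ℝ} (hl : 0 < l) (s : ℝ × (ι → ℝ)) :
    g2 i₀ K K' t (l • s) = g2 i₀ K K' t s := by
  unfold g2
  rw [zY_smul hl]
  have h1 : (l • s).2 i₀ / ‖l • s‖ = s.2 i₀ / ‖s‖ := by
    rw [norm_smul, Real.norm_eq_abs, abs_of_pos hl, Prod.smul_snd, Pi.smul_apply, smul_eq_mul]
    rw [mul_div_mul_left _ _ hl.ne']
  rw [h1]

/-- Where the ramp is positive, `kap s i₀ > -1/4`. -/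
theorem kap_of_g2 (hK : 16 ≤ K) (hK' : 16 ≤ K') {t : ℝ} (ht : t ∈ Icc (0 : ℝ) 1)
    {s : ℝ × (ι → ℝ)} (hs : s ≠ 0) (hG : -1 < g2 i₀ K K' t s) : -(1 / 8) < zY i₀ s := by
  have hn : 0 < ‖s‖ := norm_pos_iff.mpr hs
  have hD := zY_den_pos (i₀ := i₀) hs
  rcases le_or_gt 0 (s.2 i₀) with h0 | h0
  · have : 0 ≤ zY i₀ s := div_nonneg h0 hD.le
    linarith
  · have hor : -1 < K * zY i₀ s ∨ -1 < K' * (s.2 i₀ / ‖s‖) := by
      by_contra hne
      push Not at hne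
      obtain ⟨h1, h2⟩ := hne
      have h3 := mul_le_mul_of_nonneg_left h1 (sub_nonneg.mpr ht.2)
      have h4 := mul_le_mul_of_nonneg_left h2 ht.1
      unfold g2 at hG
      linarith
    rcases hor with h1 | h1
    · have h2 : zY i₀ s ≤ 0 := div_nonpos_of_nonpos_of_nonneg h0.le hD.le
      have h3 : K * zY i₀ s ≤ 16 * zY i₀ s := mul_le_mul_of_nonpos_right hK h2
      linarith
    · have h2 : s.2 i₀ / ‖s‖ ≤ 0 := div_nonpos_of_nonpos_of_nonneg h0.le hn.le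
      have h3 : K' * (s.2 i₀ / ‖s‖) ≤ 16 * (s.2 i₀ / ‖s‖) := mul_le_mul_of_nonpos_right hK' h2
      have h4 : -(1 / 16) < s.2 i₀ / ‖s‖ := by linarith
      rw [lt_div_iff₀ hn] at h4
      have h5 : ‖s‖ = max |s.1| (max ‖Function.update s.2 i₀ 0‖ |s.2 i₀|) := by
        rw [Prod.norm_def, Real.norm_eq_abs, norm_eq_max i₀ s.2]
      have h6 : |s.2 i₀| = -s.2 i₀ := abs_of_neg h0
      have h7 : ‖s‖ / 2 ≤ zm i₀ s := by
        rw [h6] at h5
        have h8 : ‖s‖ ≤ max |s.1| ‖Function.update s.2 i₀ 0‖ := by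
          by_contra hne
          have hne := not_le.mp hne
          have h9 : ‖s‖ ≤ -s.2 i₀ := by
            by_contra hne2
            have hne2 := not_le.mp hne2
            have h10 : max |s.1| (max ‖Function.update s.2 i₀ 0‖ (-s.2 i₀)) < ‖s‖ :=
              max_lt ((le_max_left _ _).trans_lt hne)
                (max_lt ((le_max_right _ _).trans_lt hne) hne2)
            rw [← h5] at h10
            exact lt_irrefl _ h10
          linarith
        unfold zm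
        rcases le_max_iff.mp h8 with h9 | h9
        · exact le_max_of_le_right (by linarith)
        · exact le_max_of_le_left (by linarith [norm_nonneg (Function.update s.2 i₀ (0 : ℝ))])
      have h8 : ‖s‖ / 2 ≤ max (zm i₀ s) (|s.2 i₀| / 4) := h7.trans (le_max_left _ _)
      unfold zY
      rw [lt_div_iff₀ hD]
      linarith

theorem kap_ge_of_zY {s : ℝ × (ι → ℝ)} (h : -(1 / 8) < zY i₀ s) : -(1 / 8) < kap s i₀ := by
  rw [kap_eq_zY]
  exact lt_max_of_lt_right (lt_min h (by norm_num))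

theorem kap_lt_of_zY {s : ℝ × (ι → ℝ)} (h : zY i₀ s < 0) : kap s i₀ < 0 := by
  rw [kap_eq_zY]
  exact max_lt (by norm_num) ((min_le_left _ _).trans_lt h)

theorem zY_neg_of_g2 (hK : 16 ≤ K) (hK' : 16 ≤ K') {t : ℝ} (ht : t ∈ Icc (0 : ℝ) 1)
    {s : ℝ × (ι → ℝ)} (hs : s ≠ 0) (hG : g2 i₀ K K' t s < 0) : zY i₀ s < 0 := by
  have hn : 0 < ‖s‖ := norm_pos_iff.mpr hs
  have hD := zY_den_pos (i₀ := i₀) hs
  refine div_neg_of_neg_of_pos ?_ hD
  by_contra hne
  have hne := not_lt.mp hne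
  have h1 : 0 ≤ zY i₀ s := div_nonneg hne hD.le
  have h2 : 0 ≤ s.2 i₀ / ‖s‖ := div_nonneg hne hn.le
  have h3 : 0 ≤ (1 - t) * (K * zY i₀ s) :=
    mul_nonneg (sub_nonneg.mpr ht.2) (mul_nonneg (by linarith) h1)
  have h4 : 0 ≤ t * (K' * (s.2 i₀ / ‖s‖)) := mul_nonneg ht.1 (mul_nonneg (by linarith) h2)
  unfold g2 at hG
  linarith

/-- The data of `ZDat` do not change between two points which differ only in the coordinate
`i₀`, near `0`. -/
theorem ZDat.const2 (h : ZDat i₀ e ε j k b ν) (i : A) {x x' : ι → ℝ}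
    (hx : x ∈ closedBall (0 : ι → ℝ) 1) (hxx : ∀ l, l ≠ i₀ → x' l = x l)
    (h1 : |x i₀| ≤ 1 / 4) (h2 : |x' i₀| ≤ 1 / 4) : b i x' = b i x ∧ ν i x' = ν i x := by
  have hup : Function.update x i₀ (x' i₀) = x' := by
    funext l
    by_cases hl : l = i₀
    · subst hl; rw [Function.update_self]
    · rw [Function.update_of_ne hl, hxx l hl]
  have := h.cL i x hx (x' i₀) h1 h2
  rwa [hup] at this

/-- **The second ZIP family.** -/
theorem zfam2 (h : ZDat i₀ e ε j k b ν) (he : ‖e‖ = 1) (hA : Adm ε R M b) (hK : 16 ≤ K)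
    (hK' : 16 ≤ K') :
    ZFam (Icc (0 : ℝ) 1) e ε R M j k (fun _ => b) (fun _ => ν)
      (fun t s => (1 - t) * (K * zY i₀ s) + t * (K' * (s.2 i₀ / ‖s‖))) where
  fam := bData_const h.dat _
  jk := h.jk
  he := he
  adm := fun _ _ => hA
  cG := continuousOn_g2 K K'
  hG := fun t _ l hl x => g2_smul K K' t hl x
  par := fun t ht x hx hG => by
    have h1 : -(1 / 4) ≤ kap x i₀ := by
      have := kap_ge_of_zY (kap_of_g2 hK hK' ht hx hG)
      linarith
    exact ⟨h.nu _ (kap_mem x) h1, h.perp _ (kap_mem x) h1,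
      fun i hij hik θ hθ => h.sepi i hij hik _ (kap_mem x) h1 θ hθ⟩
  slab := fun t ht x hx _ => by
    obtain ⟨L1, U1, hU1, H1⟩ := zY_dirLip (i₀ := i₀) hx
    obtain ⟨L2, U2, hU2, H2⟩ := zN_dirLip (i₀ := i₀) hx
    refine ⟨K * |L1| + K' * |L2|, U1 ∩ U2, inter_mem hU1 hU2, ?_⟩
    filter_upwards [self_mem_nhdsWithin] with τ hτ y hy γ hγ
    have a1 := H1 y hy.1 γ hγ.1
    have a2 := H2 y hy.2 γ hγ.2
    set Y' := zY i₀ (y + γ • ((1, 0) : ℝ × (ι → ℝ)))
    set Y := zY i₀ y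
    set N' := (y + γ • ((1, 0) : ℝ × (ι → ℝ))).2 i₀ / ‖y + γ • ((1, 0) : ℝ × (ι → ℝ))‖
    set N := y.2 i₀ / ‖y‖
    have e1 : (1 - τ) * (K * Y') + τ * (K' * N') - ((1 - τ) * (K * Y) + τ * (K' * N)) =
        (1 - τ) * (K * (Y' - Y)) + τ * (K' * (N' - N)) := by ring
    show |(1 - τ) * (K * Y') + τ * (K' * N') - ((1 - τ) * (K * Y) + τ * (K' * N))| ≤ _
    rw [e1]
    have b1 : |Y' - Y| ≤ |L1| * |γ| :=
      a1.trans (mul_le_mul_of_nonneg_right (le_abs_self _) (abs_nonneg _))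
    have b2 : |N' - N| ≤ |L2| * |γ| :=
      a2.trans (mul_le_mul_of_nonneg_right (le_abs_self _) (abs_nonneg _))
    have hK0 : 0 ≤ K := by linarith
    have hK0' : 0 ≤ K' := by linarith
    have c1 : |(1 - τ) * (K * (Y' - Y))| ≤ 1 * (K * (|L1| * |γ|)) := by
      rw [abs_mul, abs_mul, abs_of_nonneg hK0, abs_of_nonneg (sub_nonneg.mpr hτ.2)]
      exact mul_le_mul (by linarith [hτ.1]) (mul_le_mul_of_nonneg_left b1 hK0) (by positivity)
        zero_le_one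
    have c2 : |τ * (K' * (N' - N))| ≤ 1 * (K' * (|L2| * |γ|)) := by
      rw [abs_mul, abs_mul, abs_of_nonneg hK0', abs_of_nonneg hτ.1]
      exact mul_le_mul hτ.2 (mul_le_mul_of_nonneg_left b2 hK0') (by positivity) zero_le_one
    calc _ ≤ |(1 - τ) * (K * (Y' - Y))| + |τ * (K' * (N' - N))| := abs_add_le _ _
      _ ≤ 1 * (K * (|L1| * |γ|)) + 1 * (K' * (|L2| * |γ|)) := add_le_add c1 c2
      _ = _ := by ring
  cro := fun t ht x hx hle hG0 hG1 => by
    have hn : 0 < ‖x‖ := norm_pos_iff.mpr hx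
    have hε := hA.hε
    have hR0 : 0 < R := by linarith [hA.hR]
    have hK0 : 0 ≤ K := by linarith
    have hK0' : 0 ≤ K' := by linarith
    have hY0 := kap_of_g2 hK hK' ht hx hG0
    have hY1 := zY_neg_of_g2 hK hK' ht hx hG1
    have hk0 := kap_ge_of_zY hY0
    have hk1 := kap_lt_of_zY hY1
    -- the direction
    obtain ⟨d, hd0, hd1, hdc, hdR, hdp⟩ : ∃ d : ℝ, 0 ≤ d ∧ d ≤ 1 / 2 ∧ (d = 0 ∨ ‖x.2‖ = x.1) ∧
        R * d ≤ ε ∧ (‖x.2‖ = x.1 → 0 < d) := by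
      by_cases hc : ‖x.2‖ = x.1
      · refine ⟨min (1 / 2) (ε / R), by positivity, min_le_left _ _, Or.inr hc, ?_,
          fun _ => by positivity⟩
        calc R * min (1 / 2) (ε / R) ≤ R * (ε / R) :=
              mul_le_mul_of_nonneg_left (min_le_right _ _) hR0.le
          _ = ε := by field_simp
      · exact ⟨0, le_rfl, by norm_num, Or.inl rfl, by rw [mul_zero]; exact hε.le,
          fun h1 => absurd h1 hc⟩
    obtain ⟨L1, U1, hU1, H1⟩ := zY_grow (i₀ := i₀) hle hx hd0 hd1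
    obtain ⟨L2, U2, hU2, H2⟩ := zN_grow (i₀ := i₀) hx (by linarith) (by linarith) hd0 hd1 hdc
    obtain ⟨U3, hU3, H3⟩ := kap_add_zdir (i₀ := i₀) (s := x) (by linarith) (by linarith) hx
    have habs : |zY i₀ x| < 1 / 4 := by rw [abs_of_neg hY1]; linarith
    have hU4 : {y : ℝ × (ι → ℝ) | |zY i₀ y| < 1 / 4} ∈ 𝓝 x :=
      (continuousAt_zY hx).abs.eventually (gt_mem_nhds habs)
    have hU5 : ∃ U ∈ 𝓝 x, ∀ y ∈ U, ∀ γ : ℝ, 0 ≤ γ → y + γ • zdir i₀ d ∈ U →
        (‖x.2‖ = x.1 → d * γ ≤ (‖(y + γ • zdir i₀ d).2‖ - |(y + γ • zdir i₀ d).1|) -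
          (‖y.2‖ - |y.1|)) := by
      by_cases hc : ‖x.2‖ = x.1
      · obtain ⟨U, hU, H⟩ := front_grow (i₀ := i₀) hx hc (by linarith) d
        exact ⟨U, hU, fun y hy γ hγ hyγ _ => H y hy γ hγ hyγ⟩
      · exact ⟨univ, univ_mem, fun y _ γ _ _ h1 => absurd h1 hc⟩
    obtain ⟨U5, hU5, H5⟩ := hU5
    refine ⟨zdir i₀ d, 4 / ‖x‖, d, K * |L1| + K' * |L2|, if ‖x.2‖ = x.1 then d else 1,
      by positivity, hd0, ?_, ?_, U1 ∩ (U2 ∩ (U3 ∩ ({y | |zY i₀ y| < 1 / 4} ∩ U5))),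
      inter_mem hU1 (inter_mem hU2 (inter_mem hU3 (inter_mem hU4 hU5))), ?_⟩
    · split_ifs with hc
      · exact hdp hc
      · exact one_pos
    · have : 2 * ε * (4 / ‖x‖) * ‖x‖ = 8 * ε := by field_simp; ring
      rw [this]
      linarith
    filter_upwards [self_mem_nhdsWithin] with τ hτ y hy γ hγ hyγ
    obtain ⟨a1, a1'⟩ := H1 y hy.1 γ hγ hyγ.1
    obtain ⟨a2, a2'⟩ := H2 y hy.2.1 γ hγ hyγ.2.1
    obtain ⟨a3, a4⟩ := H3 d ⟨hd0, by linarith⟩ hdc y hy.2.2.1 γ hyγ.2.2.1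
    have a5 := H5 y hy.2.2.2.2 γ hγ hyγ.2.2.2.2
    have hkap : ∀ z : ℝ × (ι → ℝ), |zY i₀ z| < 1 / 4 → |kap z i₀| ≤ 1 / 4 := by
      intro z hz
      obtain ⟨h1, h2⟩ := abs_lt.mp hz
      rw [kap_eq_zY]
      rw [abs_le]
      exact ⟨le_max_of_le_right (le_min (by linarith) (by norm_num)),
        max_le (by norm_num) ((min_le_left _ _).trans h2.le)⟩
    have a6 := hkap y hy.2.2.2.1
    have a7 := hkap _ hyγ.2.2.2.1
    refine ⟨?_, ?_, ?_, ?_, ?_⟩
    · set Y' := zY i₀ (y + γ • zdir i₀ d)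
      set Y := zY i₀ y
      set N' := (y + γ • zdir i₀ d).2 i₀ / ‖y + γ • zdir i₀ d‖
      set N := y.2 i₀ / ‖y‖
      have e1 : (1 - τ) * (K * Y') + τ * (K' * N') - ((1 - τ) * (K * Y) + τ * (K' * N)) =
          (1 - τ) * (K * (Y' - Y)) + τ * (K' * (N' - N)) := by ring
      show 4 / ‖x‖ * γ ≤ (1 - τ) * (K * Y') + τ * (K' * N') - ((1 - τ) * (K * Y) + τ * (K' * N))
      rw [e1]
      have g0 : 0 ≤ 1 / (4 * ‖x‖) * γ := by positivity
      have e2 : 16 * (1 / (4 * ‖x‖) * γ) = 4 / ‖x‖ * γ := by field_simp; ring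
      have c1 : 16 * (1 / (4 * ‖x‖) * γ) ≤ K * (Y' - Y) :=
        mul_le_mul hK a1 g0 hK0
      have c2 : 16 * (1 / (4 * ‖x‖) * γ) ≤ K' * (N' - N) :=
        mul_le_mul hK' a2 g0 hK0'
      have c3 := mul_le_mul_of_nonneg_left c1 (sub_nonneg.mpr hτ.2)
      have c4 := mul_le_mul_of_nonneg_left c2 hτ.1
      rw [e2] at c3 c4
      linarith
    · set Y' := zY i₀ (y + γ • zdir i₀ d)
      set Y := zY i₀ y
      set N' := (y + γ • zdir i₀ d).2 i₀ / ‖y + γ • zdir i₀ d‖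
      set N := y.2 i₀ / ‖y‖
      have e1 : (1 - τ) * (K * Y') + τ * (K' * N') - ((1 - τ) * (K * Y) + τ * (K' * N)) =
          (1 - τ) * (K * (Y' - Y)) + τ * (K' * (N' - N)) := by ring
      show (1 - τ) * (K * Y') + τ * (K' * N') - ((1 - τ) * (K * Y) + τ * (K' * N)) ≤ _
      rw [e1]
      have b1 : Y' - Y ≤ |L1| * γ := a1'.trans (mul_le_mul_of_nonneg_right (le_abs_self _) hγ)
      have b2 : N' - N ≤ |L2| * γ := a2'.trans (mul_le_mul_of_nonneg_right (le_abs_self _) hγ)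
      have c1 : (1 - τ) * (K * (Y' - Y)) ≤ 1 * (K * (|L1| * γ)) := by
        have h1 := mul_le_mul_of_nonneg_left b1 hK0
        have h2 := mul_le_mul_of_nonneg_left h1 (sub_nonneg.mpr hτ.2)
        refine h2.trans (mul_le_mul_of_nonneg_right (by linarith [hτ.1]) (by positivity))
      have c2 : τ * (K' * (N' - N)) ≤ 1 * (K' * (|L2| * γ)) := by
        have h1 := mul_le_mul_of_nonneg_left b2 hK0'
        have h2 := mul_le_mul_of_nonneg_left h1 hτ.1
        exact h2.trans (mul_le_mul_of_nonneg_right hτ.2 (by positivity))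
      linarith
    · obtain ⟨p1, p2⟩ := ZDat.const2 h j (kap_mem y) a3 a6 a7
      obtain ⟨p3, p4⟩ := ZDat.const2 h k (kap_mem y) a3 a6 a7
      exact ⟨p1, p3, p2, p4⟩
    · rw [abs_of_nonneg hγ] at a4
      exact a4
    · intro hc
      rw [if_pos hc]
      exact a5 hc

end Vale.Agent.P268.T.Z354
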