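import Vale.Agent.P268.T.PlatesD

/-!
# P268, topological half: zeros at which several sheets meet, with a common direction

`SheetData.LocC`: local conditions at a zero for the active sheets, which need not be parallel: a
common normal `ν₀`, a fibre direction `ω` and a base direction `u` (along which `w a` moves with
velocity `ζ a`), such that all active real parts increase along `D ω + u`.
`SheetData.BaseL.regAt_dirs`: the glued function is regular there.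
-/

set_option linter.unusedSectionVars false

namespace Vale.Agent.P268.T

open Set Filter Topology

/-- Two estimates of `PlatesD`, with a growth rate at least one. -/
theorem dirs_alg354 {a b Δh Δb E : ℝ} (hE : E ≤ 1 / 16 * (|a| + |b|) + 3 / 8 * |a|)
    (h1 : |Δb - b| ≤ E) (h2 : a ^ 2 - E * |a| ≤ Δh * a) :
    1 / 4 * (a ^ 2 + b ^ 2) ≤ Δh * a + Δb * b := by
  have e1 : |(Δb - b) * b| ≤ (1 / 16 * (|a| + |b|) + 3 / 8 * |a|) * |b| := by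
    rw [abs_mul]; exact mul_le_mul_of_nonneg_right (h1.trans hE) (abs_nonneg _)
  have e2 : E * |a| ≤ (1 / 16 * (|a| + |b|) + 3 / 8 * |a|) * |a| :=
    mul_le_mul_of_nonneg_right hE (abs_nonneg _)
  have e3 := (abs_le.mp e1).1
  have e5 : a ^ 2 = |a| ^ 2 := (sq_abs a).symm
  have e6 : b ^ 2 = |b| ^ 2 := (sq_abs b).symm
  have e8 : Δh * a + Δb * b = Δh * a + (b ^ 2 + (Δb - b) * b) := by ring
  rw [e8, e5, e6]
  rw [e5] at h2
  set x := |a|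
  set y := |b|
  nlinarith [abs_nonneg a, abs_nonneg b, sq_nonneg x, sq_nonneg y, sq_nonneg (x - y)]

namespace SheetData

variable {T E V A : Type*} [TopologicalSpace T] [NormedAddCommGroup E] [NormedSpace ℝ E]
  [NormedAddCommGroup V] [InnerProductSpace ℝ V] [Fintype A] [Nonempty A]
variable {P : SheetData T E V A} {s : Set T} {η : ℝ} {N : E → ℝ}

/-- Local conditions at `(τ₀, x₀)`, for the active sheets, which need not be parallel: a common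
normal, and directions `ω` (in the fibre) and `u` (in the base, velocities `ζ a`) along which all
active real parts increase. -/
structure LocC (P : SheetData T E V A) (s : Set T) (τ₀ : T) (x₀ : E) (D : V →L[ℝ] E) (u : E)
    (ζ : A → V) (ω ν₀ : V) (L : ℝ) : Prop where
  hν : ∀ a, P.rho τ₀ a x₀ = gre P.rho τ₀ x₀ → P.ν τ₀ a x₀ = ν₀
  hω : inner ℝ ω ν₀ = 0
  hζ : ∀ a, P.rho τ₀ a x₀ = gre P.rho τ₀ x₀ → inner ℝ (ζ a) ν₀ = 0
  hw : ∀ a, P.rho τ₀ a x₀ = gre P.rho τ₀ x₀ → P.tp τ₀ a x₀ = gre P.rho τ₀ x₀ →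
    P.w τ₀ a x₀ ≠ 0 ∧ inner ℝ (P.w τ₀ a x₀) (ω + ζ a) ≤ -‖P.w τ₀ a x₀‖
  dir : ∀ κ : ℝ, 0 < κ → ∃ U ∈ 𝓝 x₀, ∀ᶠ τ in 𝓝[s] τ₀, ∀ y ∈ U, ∀ (v : V) (l : ℝ),
    y + (D v + l • u) ∈ U → ∀ a, P.rho τ₀ a x₀ = gre P.rho τ₀ x₀ →
      ‖P.w τ a (y + (D v + l • u)) - P.w τ a y - (v + l • ζ a)‖ ≤ κ * ‖v‖ + |l| / 8 ∧
      |P.r τ a (y + (D v + l • u)) - P.r τ a y| ≤ κ * ‖v‖ + |l| / 8 ∧
      (1 + P.r τ₀ a x₀) * ‖P.ν τ a (y + (D v + l • u)) - P.ν τ a y‖ ≤ κ * ‖v‖ + |l| / 8 ∧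
      |P.σ τ a (y + (D v + l • u)) - P.σ τ a y| ≤ κ * ‖v‖ + L * |l| ∧
      (P.σ τ₀ a x₀ = 0 → l ^ 2 ≤ l * (P.σ τ a (y + (D v + l • u)) - P.σ τ a y) +
        κ * ‖v‖ * |l|)

/-- The increments of one sheet. -/
structure EstC (P : SheetData T E V A) (τ₀ : T) (x₀ : E) (ζ : A → V) (L κ Z : ℝ) (τ : T) (a : A)
    (y y' : E) (v : V) (l : ℝ) : Prop where
  b : |P.be τ a y' - P.be τ a y - inner ℝ (v + l • ζ a) (P.ν τ₀ a x₀)| ≤
    4 * κ * ‖v‖ + (1 / 4 + κ * Z) * |l|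
  t : P.w τ₀ a x₀ ≠ 0 →
    |P.tp τ a y' - P.tp τ a y + inner ℝ (P.w τ₀ a x₀) (v + l • ζ a) / ‖P.w τ₀ a x₀‖| ≤
      4 * κ * ‖v‖ + (1 / 4 + κ * (Z + 1)) * |l|
  t' : |P.tp τ a y' - P.tp τ a y| ≤ 3 * ‖v‖ + (Z + 1) * |l|
  s : |P.σ τ a y' - P.σ τ a y| ≤ κ * ‖v‖ + L * |l|
  s' : P.σ τ₀ a x₀ = 0 → l ^ 2 ≤ l * (P.σ τ a y' - P.σ τ a y) + κ * ‖v‖ * |l|

theorem LocC.est (h : P.BaseL s η N) {τ₀ : T} (hτ₀ : τ₀ ∈ s) {x₀ : E} (hx₀ : N x₀ ≠ 0)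
    (h0 : 0 ≤ gre P.rho τ₀ x₀) {D : V →L[ℝ] E} {u : E} {ζ : A → V} {ω ν₀ : V} {L : ℝ}
    (H : P.LocC s τ₀ x₀ D u ζ ω ν₀ L) {κ Z : ℝ} (hκ : 0 < κ) (hκ1 : κ ≤ 1)
    (hZ : ∀ a, ‖ζ a‖ ≤ Z) :
    ∃ U ∈ 𝓝 x₀, ∀ᶠ τ in 𝓝[s] τ₀, ∀ y ∈ U, ∀ (v : V) (l : ℝ), y + (D v + l • u) ∈ U →
      ∀ a, P.rho τ₀ a x₀ = gre P.rho τ₀ x₀ →
        P.EstC τ₀ x₀ ζ L κ Z τ a y (y + (D v + l • u)) v l := by
  obtain ⟨U, hU, hev⟩ := H.dir κ hκ
  -- one sheet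
  have h1 : ∀ a, ∀ᶠ p : T × E in 𝓝[s ×ˢ univ] (τ₀, x₀), ‖P.ν p.1 a p.2‖ = 1 ∧
      ‖P.ν p.1 a p.2 - P.ν τ₀ a x₀‖ ≤ κ ∧
      (P.rho τ₀ a x₀ = gre P.rho τ₀ x₀ → ‖P.w p.1 a p.2‖ ≤ 1 + P.r τ₀ a x₀) := by
    intro a
    have c1 : ContinuousWithinAt (fun p : T × E => P.ν p.1 a p.2) (s ×ˢ univ) (τ₀, x₀) := by
      refine (h.cn a (τ₀, x₀) ⟨hτ₀, hx₀⟩).mono_of_mem_nhdsWithin ?_
      filter_upwards [self_mem_nhdsWithin,
        mem_nhdsWithin_of_mem_nhds (h.glueL.mem_N hx₀ τ₀)] with p hp hp'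
      exact ⟨hp.1, hp'⟩
    have c2 : Tendsto (fun p : T × E => ‖P.w p.1 a p.2‖) (𝓝[s ×ˢ univ] (τ₀, x₀))
      (𝓝 ‖P.w τ₀ a x₀‖) := (h.cw a (τ₀, x₀) ⟨hτ₀, mem_univ _⟩).norm
    have c3 := c1.eventually (Metric.ball_mem_nhds _ hκ)
    have c4 : ∀ᶠ p : T × E in 𝓝[s ×ˢ univ] (τ₀, x₀), P.rho τ₀ a x₀ = gre P.rho τ₀ x₀ →
        ‖P.w p.1 a p.2‖ ≤ 1 + P.r τ₀ a x₀ := by
      by_cases ha : P.rho τ₀ a x₀ = gre P.rho τ₀ x₀
      · have h2 : 0 ≤ P.tp τ₀ a x₀ := (h0.trans ha.symm.le).trans (min_le_left _ _)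
        unfold tp at h2
        filter_upwards [c2.eventually (gt_mem_nhds
          (show ‖P.w τ₀ a x₀‖ < 1 + P.r τ₀ a x₀ by linarith))] with p hp _
        exact hp.le
      · exact Eventually.of_forall fun p hp => absurd hp ha
    filter_upwards [c3, c4, self_mem_nhdsWithin,
      mem_nhdsWithin_of_mem_nhds (h.glueL.mem_N hx₀ τ₀)] with p hp hp4 hp1 hp2
    refine ⟨h.nn p.1 hp1.1 a p.2 hp2, ?_, hp4⟩
    have := Metric.mem_ball.mp hp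
    rw [dist_eq_norm] at this
    exact this.le
  have h2 : ∀ a, ∃ W ∈ 𝓝 (P.w τ₀ a x₀), P.w τ₀ a x₀ ≠ 0 → ∀ z ∈ W, ∀ z' ∈ W,
      |‖z'‖ - ‖z‖ - inner ℝ (P.w τ₀ a x₀) (z' - z) / ‖P.w τ₀ a x₀‖| ≤ κ * ‖z' - z‖ := by
    intro a
    by_cases ha : P.w τ₀ a x₀ = 0
    · exact ⟨univ, univ_mem, fun hne => absurd ha hne⟩
    · have h3 := norm_incr ha hκ
      rw [nhds_prod_eq, eventually_prod_iff] at h3
      obtain ⟨pa, ha', pb, hb', hab⟩ := h3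
      exact ⟨{z | pa z ∧ pb z}, ha'.and hb', fun _ z hz z' hz' => hab hz.1 hz'.2⟩
  choose W hW1 hW2 using h2
  have h3 : ∀ a, ∀ᶠ p : T × E in 𝓝[s ×ˢ univ] (τ₀, x₀), P.w p.1 a p.2 ∈ W a :=
    fun a => (h.cw a (τ₀, x₀) ⟨hτ₀, mem_univ _⟩).eventually (hW1 a)
  obtain ⟨U', hU', hev'⟩ := ev_prod (Q := fun τ x => (∀ a, ‖P.ν τ a x‖ = 1 ∧
      ‖P.ν τ a x - P.ν τ₀ a x₀‖ ≤ κ ∧
      (P.rho τ₀ a x₀ = gre P.rho τ₀ x₀ → ‖P.w τ a x‖ ≤ 1 + P.r τ₀ a x₀)) ∧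
      ∀ a, P.w τ a x ∈ W a) ((eventually_all.mpr h1).and (eventually_all.mpr h3))
  refine ⟨U ∩ U', inter_mem hU hU', ?_⟩
  filter_upwards [hev, hev'] with τ e1 e2 y hy v l hyv a ha
  obtain ⟨d1, d2, d3, d4, d5⟩ := e1 y hy.1 v l hyv.1 a ha
  obtain ⟨f1, f2⟩ := e2 y hy.2
  obtain ⟨g1, g2⟩ := e2 _ hyv.2
  set y' := y + (D v + l • u) with hy'
  have hv := norm_nonneg v
  have hl := abs_nonneg l
  have hκv : 0 ≤ κ * ‖v‖ := by positivity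
  have hv' : ‖v + l • ζ a‖ ≤ ‖v‖ + Z * |l| := by
    refine (norm_add_le _ _).trans ?_
    rw [norm_smul, Real.norm_eq_abs, mul_comm Z]
    have := mul_le_mul_of_nonneg_left (hZ a) hl
    linarith
  have hκv' : κ * ‖v + l • ζ a‖ ≤ κ * ‖v‖ + κ * Z * |l| := by
    have := mul_le_mul_of_nonneg_left hv' hκ.le
    have e : κ * (‖v‖ + Z * |l|) = κ * ‖v‖ + κ * Z * |l| := by ring
    linarith
  have i1 : κ * (κ * ‖v‖ + |l| / 8) ≤ κ * ‖v‖ + κ * |l| / 8 := by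
    have := mul_le_mul_of_nonneg_right hκ1 hκv
    have e : κ * (κ * ‖v‖ + |l| / 8) = κ * (κ * ‖v‖) + κ * |l| / 8 := by ring
    linarith
  have i2 : 0 ≤ κ * |l| := by positivity
  refine ⟨?_, ?_, ?_, d4, d5⟩
  · refine (be_est (g1 a).1 d1 (g1 a).2.1 ((f1 a).2.2 ha) d3).trans ?_
    have e : 4 * κ * ‖v‖ + (1 / 4 + κ * Z) * |l| = 4 * (κ * ‖v‖) + |l| / 4 + κ * Z * |l| := by ring
    rw [e]
    linarith
  · intro hw0
    refine (tp_est d1 d2 hκ.le (hW2 a hw0 _ (f2 a) _ (g2 a)) hw0).trans ?_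
    have e : 4 * κ * ‖v‖ + (1 / 4 + κ * (Z + 1)) * |l| =
      4 * (κ * ‖v‖) + |l| / 4 + κ * Z * |l| + κ * |l| := by ring
    have e' : κ * (‖v + l • ζ a‖ + (κ * ‖v‖ + |l| / 8)) =
      κ * ‖v + l • ζ a‖ + κ * (κ * ‖v‖ + |l| / 8) := by ring
    rw [e, e']
    linarith
  · refine (tp_est' d1 d2).trans ?_
    have i3 : κ * ‖v‖ ≤ 1 * ‖v‖ := mul_le_mul_of_nonneg_right hκ1 hv
    have e : 3 * ‖v‖ + (Z + 1) * |l| = 3 * ‖v‖ + Z * |l| + |l| := by ring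
    rw [e]
    linarith

/-- **Regularity at a zero where several sheets meet.** -/
theorem BaseL.regAt_dirs (h : P.BaseL s η N) {τ₀ : T} (hτ₀ : τ₀ ∈ s) {x₀ : E}
    (hx₀ : N x₀ ≠ 0) (hz : P.fn η N τ₀ x₀ = 0) {D : V →L[ℝ] E} {u : E} {ζ : A → V} {ω ν₀ : V}
    {L : ℝ} (H : P.LocC s τ₀ x₀ D u ζ ω ν₀ L) : RegAt s (P.fn η N) τ₀ x₀ := by
  have h0 : gre P.rho τ₀ x₀ = 0 := congrArg Complex.re hz
  have hz2 : gim η N P.rho P.be τ₀ x₀ = 0 := congrArg Complex.im hz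
  have hn : 0 < N x₀ := lt_of_le_of_ne (h.nN x₀) (Ne.symm hx₀)
  have hη := h.hη
  have hηN : 0 < η / 2 * N x₀ := by positivity
  obtain ⟨a₀, ha₀⟩ := exists_gre P.rho τ₀ x₀
  have hbe : ∀ a, P.rho τ₀ a x₀ = gre P.rho τ₀ x₀ → P.be τ₀ a x₀ = 0 := by
    intro a ha
    rw [← h.glueL.im_eq hτ₀ hx₀ (a := a) (by rw [ha, h0]; linarith), hz2]
  have hν1 : ‖ν₀‖ = 1 := by
    rw [← H.hν a₀ ha₀.symm]
    exact h.nn τ₀ hτ₀ a₀ x₀ hx₀
  have ct : ∀ a, ContinuousWithinAt (fun p : T × E => P.tp p.1 a p.2) (s ×ˢ univ) (τ₀, x₀) :=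
    fun a => h.continuousOn_tp a (τ₀, x₀) ⟨hτ₀, mem_univ _⟩
  have cs : ∀ a, ContinuousWithinAt (fun p : T × E => P.σ p.1 a p.2) (s ×ˢ univ) (τ₀, x₀) :=
    fun a => h.cs a (τ₀, x₀) ⟨hτ₀, mem_univ _⟩
  -- constants
  obtain ⟨Z, hZ0, hZ⟩ : ∃ Z : ℝ, 0 ≤ Z ∧ ∀ a, ‖ζ a‖ ≤ Z :=
    ⟨∑ a, ‖ζ a‖, Finset.sum_nonneg fun a _ => norm_nonneg _, fun a =>
      Finset.single_le_sum (f := fun a => ‖ζ a‖) (fun a _ => norm_nonneg _) (Finset.mem_univ a)⟩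
  set W : ℝ := ‖ω‖ + 1 with hW
  have hW1 : 1 ≤ W := by linarith [norm_nonneg ω]
  set κ : ℝ := 1 / (64 * (W * (Z + 1))) with hκ
  have hWZ : 1 ≤ W * (Z + 1) := by nlinarith
  have hκ0 : 0 < κ := by positivity
  have hκW : κ * (W * (Z + 1)) = 1 / 64 := by
    rw [hκ]
    field_simp
  have hκ64 : κ ≤ 1 / 64 := by
    rw [← hκW]
    exact le_mul_of_one_le_right hκ0.le hWZ
  have hκWle : κ * W ≤ 1 / 64 := by
    rw [← hκW]
    exact mul_le_mul_of_nonneg_left (le_mul_of_one_le_right (by linarith) (by linarith)) hκ0.le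
  have hκZle : κ * (Z + 1) ≤ 1 / 64 := by
    rw [← hκW]
    exact mul_le_mul_of_nonneg_left (le_mul_of_one_le_left (by linarith) hW1) hκ0.le
  obtain ⟨U, hU, hev⟩ := H.est h hτ₀ hx₀ h0.ge hκ0 (by linarith) hZ
  have hvn : ∀ c : ℂ, ‖c.re • ω + c.im • ν₀‖ ≤ W * (|c.re| + |c.im|) := by
    intro c
    refine (norm_add_le _ _).trans ?_
    rw [norm_smul, norm_smul, hν1, mul_one, Real.norm_eq_abs, Real.norm_eq_abs, hW]
    have h1 := mul_nonneg (norm_nonneg ω) (abs_nonneg c.im)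
    have e : (‖ω‖ + 1) * (|c.re| + |c.im|) =
      |c.re| * ‖ω‖ + |c.re| + ‖ω‖ * |c.im| + |c.im| := by ring
    rw [e]
    linarith [abs_nonneg c.re]
  have hκv : ∀ c : ℂ, κ * ‖c.re • ω + c.im • ν₀‖ ≤ 1 / 64 * (|c.re| + |c.im|) := by
    intro c
    have h1 := mul_le_mul_of_nonneg_left (hvn c) hκ0.le
    have h2 : 0 ≤ |c.re| + |c.im| := by positivity
    have h3 := mul_le_mul_of_nonneg_right hκWle h2
    have e : κ * (W * (|c.re| + |c.im|)) = κ * W * (|c.re| + |c.im|) := by ring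
    linarith
  have hnc : ∀ c : ℂ, ‖c‖ ^ 2 = c.re ^ 2 + c.im ^ 2 := fun c => by
    rw [Complex.sq_norm, Complex.normSq_apply]; ring
  have hcr := Complex.abs_re_le_norm
  have hci := Complex.abs_im_le_norm
  have hL : L ≤ |L| := le_abs_self L
  have hL0 := abs_nonneg L
  set K : ℝ := 6 * W + Z + 7 + |L| with hK
  have hErr : ∀ c : ℂ, 4 * κ * ‖c.re • ω + c.im • ν₀‖ + (1 / 4 + κ * (Z + 1)) * |c.re| ≤
      1 / 16 * (|c.re| + |c.im|) + 3 / 8 * |c.re| := by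
    intro c
    have h1 := hκv c
    have h2 := mul_le_mul_of_nonneg_right hκZle (abs_nonneg c.re)
    have e : 4 * κ * ‖c.re • ω + c.im • ν₀‖ + (1 / 4 + κ * (Z + 1)) * |c.re| =
      4 * (κ * ‖c.re • ω + c.im • ν₀‖) + 1 / 4 * |c.re| + κ * (Z + 1) * |c.re| := by ring
    rw [e]
    linarith [abs_nonneg c.re]
  have hb : ∀ {τ a y} {c : ℂ}, P.rho τ₀ a x₀ = gre P.rho τ₀ x₀ →
      P.EstC τ₀ x₀ ζ L κ Z τ a y (y + (D (c.re • ω + c.im • ν₀) + c.re • u))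
        (c.re • ω + c.im • ν₀) c.re →
      |P.be τ a (y + rimA D u ω ν₀ c) - P.be τ a y - c.im| ≤
        4 * κ * ‖c.re • ω + c.im • ν₀‖ + (1 / 4 + κ * (Z + 1)) * |c.re| := by
    intro τ a y c ha he
    have h1 := he.b
    have h2 : inner ℝ (c.re • ω + c.im • ν₀ + c.re • ζ a) ν₀ = c.im := by
      rw [inner_add_left, inner_add_left, real_inner_smul_left, real_inner_smul_left,
        real_inner_smul_left, H.hω, H.hζ a ha, real_inner_self_eq_norm_sq, hν1]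
      ring
    rw [H.hν a ha, h2] at h1
    rw [rimA_apply]
    refine h1.trans ?_
    have h3 : 0 ≤ κ * |c.re| := by positivity
    have e : (1 / 4 + κ * (Z + 1)) * |c.re| = (1 / 4 + κ * Z) * |c.re| + κ * |c.re| := by ring
    rw [e]
    linarith
  have hb' : ∀ {Δ : ℝ} {c : ℂ}, |Δ - c.im| ≤ 1 / 16 * (|c.re| + |c.im|) + 3 / 8 * |c.re| →
      |Δ| ≤ K * ‖c‖ := by
    intro Δ c h1
    have h2 : |Δ| ≤ |Δ - c.im| + |c.im| := by
      have := abs_add_le (Δ - c.im) c.im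
      rwa [sub_add_cancel] at this
    have h3 : 0 ≤ |L| * ‖c‖ := by positivity
    have h4 := hcr c
    have h5 := hci c
    have h6 := norm_nonneg c
    have h7 : K * ‖c‖ = 6 * (W * ‖c‖) + Z * ‖c‖ + 7 * ‖c‖ + |L| * ‖c‖ := by rw [hK]; ring
    have h8 : 0 ≤ W * ‖c‖ := by positivity
    have h9 : 0 ≤ Z * ‖c‖ := by positivity
    rw [h7]
    linarith
  refine h.glueL.regAt_min (f := P.tp) (g := P.σ) (fun _ _ _ => rfl) hτ₀ hx₀ h0.ge ct cs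
    (κ := 1 / 4) (K := K) (by norm_num) (rimA D u ω ν₀) ?_ ?_
  · intro a ha hta
    obtain ⟨hw0, hw1⟩ := H.hw a ha hta
    have hwp : 0 < ‖P.w τ₀ a x₀‖ := norm_pos_iff.mpr hw0
    have hbe0 : inner ℝ (P.w τ₀ a x₀) ν₀ = 0 := by
      rw [← H.hν a ha]
      exact hbe a ha
    refine ⟨U, hU, ?_⟩
    filter_upwards [hev] with τ hτ y hy c hc
    have he := hτ y hy (c.re • ω + c.im • ν₀) c.re (by rw [← rimA_apply]; exact hc) a ha
    have hb1 := hb ha he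
    have hE := hErr c
    refine ⟨?_, ?_, hb' (hb1.trans hE)⟩
    · rw [hnc]
      refine dirs_alg354 hE hb1 ?_
      have h1 := he.t hw0
      set g : ℝ := inner ℝ (P.w τ₀ a x₀) (ω + ζ a) / ‖P.w τ₀ a x₀‖ with hg
      have hg1 : g ≤ -1 := by
        rw [hg, div_le_iff₀ hwp]
        linarith
      have h2 : inner ℝ (P.w τ₀ a x₀) (c.re • ω + c.im • ν₀ + c.re • ζ a) / ‖P.w τ₀ a x₀‖ =
          c.re * g := by
        have h3 : inner ℝ (P.w τ₀ a x₀) (c.re • ω + c.im • ν₀ + c.re • ζ a) =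
            c.re * inner ℝ (P.w τ₀ a x₀) (ω + ζ a) := by
          rw [inner_add_right, inner_add_right, real_inner_smul_right, real_inner_smul_right,
            real_inner_smul_right, hbe0, inner_add_right]
          ring
        rw [h3, hg, mul_div_assoc]
      rw [h2, ← rimA_apply] at h1
      set Δ := P.tp τ a (y + rimA D u ω ν₀ c) - P.tp τ a y with hΔ
      set Er := 4 * κ * ‖c.re • ω + c.im • ν₀‖ + (1 / 4 + κ * (Z + 1)) * |c.re| with hEr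
      have h4 : |(Δ + c.re * g) * c.re| ≤ Er * |c.re| := by
        rw [abs_mul]
        exact mul_le_mul_of_nonneg_right h1 (abs_nonneg _)
      have h5 := (abs_le.mp h4).1
      have h6 : 0 ≤ (-1 - g) * c.re ^ 2 := mul_nonneg (by linarith) (sq_nonneg _)
      have e : (Δ + c.re * g) * c.re = Δ * c.re + g * c.re ^ 2 := by ring
      have e' : (-1 - g) * c.re ^ 2 = -(c.re ^ 2) - g * c.re ^ 2 := by ring
      rw [e] at h5
      rw [e'] at h6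
      linarith
    · have h1 := he.t'
      rw [← rimA_apply] at h1
      refine h1.trans ?_
      have h2 := hvn c
      have h3 : W * (|c.re| + |c.im|) ≤ W * (2 * ‖c‖) :=
        mul_le_mul_of_nonneg_left (by linarith [hcr c, hci c]) (by linarith)
      have h4 : (Z + 1) * |c.re| ≤ (Z + 1) * ‖c‖ :=
        mul_le_mul_of_nonneg_left (hcr c) (by linarith)
      have h5 : 0 ≤ |L| * ‖c‖ := by positivity
      have h7 : K * ‖c‖ = 3 * (W * (2 * ‖c‖)) + (Z + 1) * ‖c‖ + 6 * ‖c‖ + |L| * ‖c‖ := by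
        rw [hK]; ring
      rw [h7]
      linarith [norm_nonneg c]
  · intro a ha hta
    refine ⟨U, hU, ?_⟩
    filter_upwards [hev] with τ hτ y hy c hc
    have he := hτ y hy (c.re • ω + c.im • ν₀) c.re (by rw [← rimA_apply]; exact hc) a ha
    have hb1 := (hb ha he).trans (hErr c)
    refine ⟨?_, ?_, hb' hb1⟩
    · have h1 := he.s' (hta.trans h0)
      rw [← rimA_apply] at h1
      rw [hnc]
      refine rim_alg2 (V := 64 * (κ * ‖c.re • ω + c.im • ν₀‖)) hb1 ?_ ?_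
      · have := hκv c
        linarith
      · have e : 1 / 64 * (64 * (κ * ‖c.re • ω + c.im • ν₀‖)) * |c.re| =
          κ * ‖c.re • ω + c.im • ν₀‖ * |c.re| := by ring
        rw [e]
        exact h1
    · have h1 := he.s
      rw [← rimA_apply] at h1
      refine h1.trans ?_
      have h2 := hκv c
      have h3 : L * |c.re| ≤ |L| * ‖c‖ :=
        (mul_le_mul_of_nonneg_right hL (abs_nonneg _)).trans
          (mul_le_mul_of_nonneg_left (hcr c) hL0)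
      have h7 : K * ‖c‖ = 6 * (W * ‖c‖) + Z * ‖c‖ + 7 * ‖c‖ + |L| * ‖c‖ := by rw [hK]; ring
      have h8 : 0 ≤ W * ‖c‖ := by positivity
      have h9 : 0 ≤ Z * ‖c‖ := by positivity
      rw [h7]
      linarith [hcr c, hci c, norm_nonneg c]

end SheetData

end Vale.Agent.P268.T
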