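import Vale.Agent.P268.T.H293.ZipDef

/-!
# P268, topological half: the ramp and the windows of ZIP
-/

set_option linter.unusedSectionVars false

namespace Vale.Agent.P268.T.Z293

open Set Filter Topology Metric

variable {ι : Type*} [Fintype ι] [DecidableEq ι] {i₀ : ι}

/-! ### Norms -/

theorem norm_update_le (i₀ : ι) (p : ι → ℝ) : ‖Function.update p i₀ 0‖ ≤ ‖p‖ := by
  rw [pi_norm_le_iff_of_nonneg (norm_nonneg _)]
  intro i
  by_cases h : i = i₀
  · subst h
    simp
  · rw [Function.update_of_ne h]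
    exact norm_le_pi_norm p i

theorem norm_eq_max (i₀ : ι) (p : ι → ℝ) : ‖p‖ = max ‖Function.update p i₀ 0‖ |p i₀| := by
  refine le_antisymm ?_ (max_le (norm_update_le i₀ p) ?_)
  · rw [pi_norm_le_iff_of_nonneg (le_max_of_le_right (abs_nonneg _))]
    intro i
    by_cases h : i = i₀
    · subst h
      exact le_max_right _ _
    · refine le_trans ?_ (le_max_left _ _)
      have := norm_le_pi_norm (Function.update p i₀ 0) i
      rwa [Function.update_of_ne h] at this
  · have := norm_le_pi_norm p i₀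
    rwa [Real.norm_eq_abs] at this

theorem zm_nonneg (s : ℝ × (ι → ℝ)) : 0 ≤ zm i₀ s := le_max_of_le_left (norm_nonneg _)

/-- **(Y1)** -/
theorem zY_den_pos {s : ℝ × (ι → ℝ)} (hs : s ≠ 0) : 0 < max (zm i₀ s) (|s.2 i₀| / 4) := by
  by_contra h
  have h0 := not_lt.mp h
  have h1 : ‖Function.update s.2 i₀ 0‖ ≤ 0 :=
    ((le_max_left _ _).trans (le_max_left _ _)).trans h0
  have h2 : |s.1| / 2 ≤ 0 := ((le_max_right _ _).trans (le_max_left _ _)).trans h0
  have h3 : |s.2 i₀| / 4 ≤ 0 := (le_max_right _ _).trans h0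
  apply hs
  have h4 : s.1 = 0 := abs_nonpos_iff.mp (by linarith)
  have h5 : ‖s.2‖ ≤ 0 := by
    rw [norm_eq_max i₀]
    exact max_le h1 (by linarith)
  exact Prod.ext h4 (norm_le_zero_iff.mp h5)

theorem continuous_zm : Continuous (zm i₀ : ℝ × (ι → ℝ) → ℝ) := by
  unfold zm
  have h1 : Continuous fun s : ℝ × (ι → ℝ) => Function.update s.2 i₀ (0 : ℝ) :=
    continuous_snd.update i₀ continuous_const
  exact h1.norm.max ((continuous_abs.comp continuous_fst).div_const 2)

theorem continuous_co (i₀ : ι) : Continuous fun s : ℝ × (ι → ℝ) => s.2 i₀ :=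
  (continuous_apply i₀).comp continuous_snd

/-- **(Y2)** -/
theorem continuousAt_zY {s : ℝ × (ι → ℝ)} (hs : s ≠ 0) : ContinuousAt (zY i₀) s := by
  have h2 : Continuous fun s : ℝ × (ι → ℝ) => max (zm i₀ s) (|s.2 i₀| / 4) :=
    continuous_zm.max ((continuous_abs.comp (continuous_co i₀)).div_const 4)
  exact (continuous_co i₀).continuousAt.div h2.continuousAt (zY_den_pos hs).ne'

theorem zm_smul {k : ℝ} (hk : 0 < k) (s : ℝ × (ι → ℝ)) : zm i₀ (k • s) = k * zm i₀ s := by
  unfold zm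
  have e : Function.update (k • s).2 i₀ 0 = k • Function.update s.2 i₀ 0 := by
    funext i
    by_cases h : i = i₀
    · subst h
      simp
    · simp [Function.update_of_ne h]
  rw [e, norm_smul, Real.norm_eq_abs, abs_of_pos hk, Prod.smul_fst, smul_eq_mul, abs_mul,
    abs_of_pos hk, mul_max_of_nonneg _ _ hk.le]
  congr 1
  ring

/-- **(Y3)** -/
theorem zY_smul {k : ℝ} (hk : 0 < k) (s : ℝ × (ι → ℝ)) : zY i₀ (k • s) = zY i₀ s := by
  unfold zY
  rw [zm_smul hk]
  have e : (k • s).2 i₀ = k * s.2 i₀ := by simp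
  have e2 : k * |s.2 i₀| / 4 = k * (|s.2 i₀| / 4) := by ring
  rw [e, abs_mul, abs_of_pos hk, e2, ← mul_max_of_nonneg _ _ hk.le,
    mul_div_mul_left _ _ hk.ne']

theorem kap_den (i₀ : ι) (s : ℝ × (ι → ℝ)) :
    max |s.1| (2 * ‖s.2‖) = 2 * max (zm i₀ s) |s.2 i₀| := by
  rw [norm_eq_max i₀ s.2, zm, mul_max_of_nonneg _ _ (by norm_num : (0 : ℝ) ≤ 2),
    mul_max_of_nonneg _ _ (by norm_num : (0 : ℝ) ≤ 2),
    mul_max_of_nonneg _ _ (by norm_num : (0 : ℝ) ≤ 2)]
  have e : 2 * (|s.1| / 2) = |s.1| := by ring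
  rw [e, max_comm (2 * ‖Function.update s.2 i₀ 0‖) |s.1|, max_assoc]

theorem kap_apply (i₀ i : ι) (s : ℝ × (ι → ℝ)) :
    kap s i = s.2 i / max (zm i₀ s) |s.2 i₀| := by
  have h1 : kap s i = 2 / max |s.1| (2 * ‖s.2‖) * s.2 i := rfl
  rw [h1, kap_den i₀, div_mul_eq_mul_div, mul_div_mul_left _ _ (by norm_num : (2 : ℝ) ≠ 0)]

/-- **(Y4)** -/
theorem kap_eq_zY (s : ℝ × (ι → ℝ)) : kap s i₀ = max (-1) (min (zY i₀ s) 1) := by
  by_cases hs : s = 0
  · rw [hs]
    have h1 : kap (0 : ℝ × (ι → ℝ)) i₀ = 0 := by simp [kap]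
    have h2 : zY i₀ (0 : ℝ × (ι → ℝ)) = 0 := by simp [zY]
    rw [h1, h2]
    norm_num
  rw [kap_apply i₀ i₀, zY]
  have hd := zY_den_pos (i₀ := i₀) hs
  set m := zm i₀ s with hm
  set q := s.2 i₀ with hq
  have hm0 : 0 ≤ m := zm_nonneg s
  rcases le_or_gt |q| m with h | h
  · have h4 : |q| / 4 ≤ m := by linarith [abs_nonneg q]
    rw [max_eq_left h, max_eq_left h4]
    rw [max_eq_left h4] at hd
    obtain ⟨h5, h6⟩ := abs_le.mp h
    have h7 : q / m ≤ 1 := by rw [div_le_one hd]; exact h6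
    have h8 : -1 ≤ q / m := by rw [le_div_iff₀ hd]; linarith
    rw [min_eq_left h7, max_eq_right h8]
  · rw [max_eq_right h.le]
    have hq0 : 0 < |q| := lt_of_le_of_lt hm0 h
    have hlt : max m (|q| / 4) < |q| := max_lt h (by linarith)
    rcases lt_or_ge q 0 with h9 | h9
    · have e1 : |q| = -q := abs_of_neg h9
      have e2 : q / |q| = -1 := by
        rw [e1, div_neg, div_self h9.ne]
      have e3 : q / max m (|q| / 4) ≤ -1 := by
        rw [div_le_iff₀ hd]
        linarith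
      rw [e2, min_eq_left (e3.trans (by norm_num)), max_eq_left e3]
    · have e1 : |q| = q := abs_of_nonneg h9
      have h10 : 0 < q := by rwa [e1] at hq0
      have e2 : q / |q| = 1 := by
        rw [e1, div_self h10.ne']
      have e3 : 1 ≤ q / max m (|q| / 4) := by
        rw [le_div_iff₀ hd]
        linarith
      rw [e2, min_eq_right e3, max_eq_right (by norm_num)]

/-- **(Y5)** -/
theorem abs_zY_le (s : ℝ × (ι → ℝ)) : |zY i₀ s| ≤ 4 := by
  unfold zY
  have h0 : 0 ≤ max (zm i₀ s) (|s.2 i₀| / 4) := le_max_of_le_left (zm_nonneg s)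
  rw [abs_div, abs_of_nonneg h0]
  rcases h0.eq_or_lt with h | h
  · rw [← h, div_zero]
    norm_num
  · rw [div_le_iff₀ h]
    have := le_max_right (zm i₀ s) (|s.2 i₀| / 4)
    linarith

theorem c01_nonneg (t : ℝ) : 0 ≤ c01 t := le_max_left _ _

theorem c01_le_one (t : ℝ) : c01 t ≤ 1 := max_le zero_le_one (min_le_right _ _)

theorem c01_of_nonpos {t : ℝ} (h : t ≤ 0) : c01 t = 0 :=
  max_eq_left ((min_le_left _ _).trans h)

theorem c01_of_one_le {t : ℝ} (h : 1 ≤ t) : c01 t = 1 := by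
  unfold c01
  rw [min_eq_right h, max_eq_right zero_le_one]

/-- **(Y6)**, the end of the ZIP. -/
theorem c01_zY {K : ℝ} (hK : 1 ≤ K) (s : ℝ × (ι → ℝ)) :
    c01 (K * (zY i₀ s - 1 / 4) + 1) = c01 (K * (kap s i₀ - 1 / 4) + 1) := by
  rw [kap_eq_zY]
  rcases lt_or_ge (zY i₀ s) (-1) with h | h
  · rw [min_eq_left (h.le.trans (by norm_num)), max_eq_left h.le, c01_of_nonpos, c01_of_nonpos]
    · nlinarith
    · nlinarith
  · rcases le_or_gt (zY i₀ s) 1 with h' | h'
    · rw [min_eq_left h', max_eq_right h]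
    · rw [min_eq_right h'.le, max_eq_right (by norm_num), c01_of_one_le, c01_of_one_le]
      · nlinarith
      · nlinarith

/-- **(Y6)**, the beginning of the ZIP. -/
theorem zth_five {K : ℝ} (hK : 1 ≤ K) (s : ℝ × (ι → ℝ)) : zth i₀ 5 K s = 0 := by
  unfold zth
  refine c01_of_nonpos ?_
  have h := (abs_le.mp (abs_zY_le (i₀ := i₀) s)).2
  nlinarith

/-! ### Windows -/

/-- **(W1)** -/
theorem continuous_zphi : Continuous fun q : ℝ × ℝ => zphi q.1 q.2 := by
  unfold zphi
  fun_prop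

theorem continuous_zPhi : Continuous fun q : ℝ × (ι → ℝ) => zPhi i₀ q.1 q.2 := by
  unfold zPhi
  refine continuous_snd.update i₀ ?_
  exact continuous_zphi.comp (continuous_fst.prodMk ((continuous_apply i₀).comp continuous_snd))

section W

variable {c x : ℝ}

theorem zphi_le (x : ℝ) : zphi c x ≤ x := by
  unfold zphi
  have := le_max_left (0 : ℝ) (min (x - (c - 1 / 8)) (min (1 / 4) (c - 1 / 4)))
  linarith

/-- To the left of the window. -/
theorem zphi_left (hx : x ≤ c - 1 / 8) : zphi c x = x := by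
  unfold zphi
  rw [max_eq_left ((min_le_left _ _).trans (by linarith)), sub_zero]

/-- To the right of the beginning of the window. -/
theorem le_zphi (hx : c - 1 / 8 ≤ x) : c - 1 / 8 ≤ zphi c x := by
  unfold zphi
  have : max 0 (min (x - (c - 1 / 8)) (min (1 / 4) (c - 1 / 4))) ≤ x - (c - 1 / 8) :=
    max_le (by linarith) (min_le_left _ _)
  linarith

/-- **(W4)** -/
theorem zphi_of_le (hc : c ≤ 1 / 4) (x : ℝ) : zphi c x = x := by
  unfold zphi
  have h : min (x - (c - 1 / 8)) (min (1 / 4) (c - 1 / 4)) ≤ (0 : ℝ) :=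
    (min_le_right _ _).trans ((min_le_right _ _).trans (by linarith))
  rw [max_eq_left h, sub_zero]

theorem zphi_quarter (x : ℝ) : zphi (1 / 4) x = x := zphi_of_le le_rfl x

/-- **(W5)** -/
theorem zphi_of_five (hc : 5 ≤ c) (hx : x ≤ 1) : zphi c x = x := zphi_left (by linarith)

/-- Either `zphi` does nothing, or the result is at least `1 / 8`. -/
theorem zphi_cases (c x : ℝ) : zphi c x = x ∨ 1 / 8 ≤ zphi c x := by
  rcases le_total c (1 / 4) with h | h
  · exact Or.inl (zphi_of_le h x)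
  · rcases le_total x (c - 1 / 8) with h' | h'
    · exact Or.inl (zphi_left h')
    · right
      have := le_zphi h'
      linarith

/-- **(W6)** -/
theorem zphi_ge (hx : -(1 / 4) ≤ x) : -(1 / 4) ≤ zphi c x := by
  rcases zphi_cases c x with h | h
  · rw [h]
    exact hx
  · linarith

theorem zphi_nonneg (hx : 0 ≤ x) : 0 ≤ zphi c x := by
  rcases zphi_cases c x with h | h
  · rw [h]
    exact hx
  · linarith

/-- **(W7)** -/
theorem sub_le_zphi (hx : x ≤ c) : x - 1 / 8 ≤ zphi c x := by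
  unfold zphi
  have : max 0 (min (x - (c - 1 / 8)) (min (1 / 4) (c - 1 / 4))) ≤ 1 / 8 :=
    max_le (by norm_num) ((min_le_left _ _).trans (by linarith))
  linarith

/-- **(W8)** -/
theorem zphi_window (hc : 0 ≤ c) (hx : c - 1 / 8 ≤ x) (hx' : x ≤ c) :
    zphi c x = c - 1 / 8 ∨ c ≤ 3 / 8 ∧ |zphi c x| ≤ 1 / 4 := by
  rcases le_total c (1 / 4) with hc4 | hc4
  · right
    rw [zphi_of_le hc4]
    exact ⟨by linarith, abs_le.mpr ⟨by linarith, by linarith⟩⟩
  rcases le_total (x - (c - 1 / 8)) (min (1 / 4) (c - 1 / 4)) with h | h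
  · left
    unfold zphi
    rw [min_eq_left h, max_eq_right (by linarith)]
    ring
  · right
    have hw : (0 : ℝ) ≤ min (1 / 4) (c - 1 / 4) := le_min (by norm_num) (by linarith)
    have e : zphi c x = x - min (1 / 4) (c - 1 / 4) := by
      unfold zphi
      rw [min_eq_right h, max_eq_right hw]
    have h1 : min (1 / 4) (c - 1 / 4) ≤ (1 / 8 : ℝ) := by linarith
    have h2 : min (1 / 4) (c - 1 / 4) = c - 1 / 4 := by
      rcases le_total (1 / 4 : ℝ) (c - 1 / 4) with h3 | h3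
      · rw [min_eq_left h3] at h1
        norm_num at h1
      · exact min_eq_right h3
    rw [h2] at e h1
    rw [e]
    exact ⟨by linarith, abs_le.mpr ⟨by linarith, by linarith⟩⟩

theorem zphi_mem (c : ℝ) (hx : x ∈ Icc (-1 : ℝ) 1) : zphi c x ∈ Icc (-1 : ℝ) 1 := by
  refine ⟨?_, (zphi_le x).trans hx.2⟩
  rcases zphi_cases c x with h | h
  · rw [h]
    exact hx.1
  · linarith

end W

theorem zPhi_same (c : ℝ) (x : ι → ℝ) : zPhi i₀ c x i₀ = zphi c (x i₀) := by simp [zPhi]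

theorem zPhi_ne {i : ι} (h : i ≠ i₀) (c : ℝ) (x : ι → ℝ) : zPhi i₀ c x i = x i := by
  simp [zPhi, h]

theorem mem_cube (x : ι → ℝ) : x ∈ closedBall (0 : ι → ℝ) 1 ↔ ∀ i, |x i| ≤ 1 := by
  rw [mem_closedBall_zero_iff, pi_norm_le_iff_of_nonneg zero_le_one]
  simp [Real.norm_eq_abs]

/-- **(W2)** -/
theorem zPhi_mem (c : ℝ) {x : ι → ℝ} (hx : x ∈ closedBall (0 : ι → ℝ) 1) :
    zPhi i₀ c x ∈ closedBall (0 : ι → ℝ) 1 := by
  rw [mem_cube] at hx ⊢
  intro i
  by_cases h : i = i₀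
  · subst h
    rw [zPhi_same]
    exact abs_le.mpr (zphi_mem c (abs_le.mp (hx i)))
  · rw [zPhi_ne h]
    exact hx i

theorem exists_face {x : ι → ℝ} (hx : ‖x‖ = 1) : ∃ i, |x i| = 1 := by
  by_contra hne
  push Not at hne
  have hx' : x ∈ closedBall (0 : ι → ℝ) 1 := by rw [mem_closedBall_zero_iff, hx]
  have h1 : ∀ i, |x i| < 1 := fun i => lt_of_le_of_ne ((mem_cube x).mp hx' i) (hne i)
  have h2 : ‖x‖ < 1 := by
    rw [pi_norm_lt_iff zero_lt_one]
    simpa [Real.norm_eq_abs] using h1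
  linarith

theorem norm_one_of_face {x : ι → ℝ} (hx : x ∈ closedBall (0 : ι → ℝ) 1) {i : ι}
    (hi : |x i| = 1) : ‖x‖ = 1 := by
  refine le_antisymm (by rwa [mem_closedBall_zero_iff] at hx) ?_
  have := norm_le_pi_norm x i
  rwa [Real.norm_eq_abs, hi] at this

/-- **(W3)** -/
theorem norm_zPhi {c : ℝ} (hc : 0 ≤ c) {x : ι → ℝ} (hx : ‖x‖ = 1) :
    ‖zPhi i₀ c x‖ = 1 ∨ x i₀ = 1 ∧ 3 / 4 ≤ zPhi i₀ c x i₀ := by
  have hx' : x ∈ closedBall (0 : ι → ℝ) 1 := by rw [mem_closedBall_zero_iff, hx]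
  have hm := zPhi_mem (i₀ := i₀) c hx'
  obtain ⟨i, hi⟩ := exists_face hx
  by_cases h : i = i₀
  · subst h
    rcases eq_or_eq_neg_of_abs_eq hi with h1 | h1
    · right
      refine ⟨h1, ?_⟩
      rw [zPhi_same, h1, zphi]
      have : max 0 (min (1 - (c - 1 / 8)) (min (1 / 4) (c - 1 / 4))) ≤ (1 / 4 : ℝ) :=
        max_le (by norm_num) ((min_le_right _ _).trans (min_le_left _ _))
      linarith
    · left
      refine norm_one_of_face hm (i := i) ?_
      rw [zPhi_same, h1, zphi_left (by linarith), abs_neg, abs_one]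
  · left
    refine norm_one_of_face hm (i := i) ?_
    rw [zPhi_ne h]
    exact hi

/-! ### The direction of the ramp -/

/-- The base direction of the ramp. -/
noncomputable def zdir (i₀ : ι) (d : ℝ) : ℝ × (ι → ℝ) := (-d, Pi.single i₀ 1)

theorem add_zdir_fst (y : ℝ × (ι → ℝ)) (γ d : ℝ) :
    (y + γ • zdir i₀ d).1 = y.1 - γ * d := by
  simp [zdir]
  ring

theorem add_zdir_same (y : ℝ × (ι → ℝ)) (γ d : ℝ) :
    (y + γ • zdir i₀ d).2 i₀ = y.2 i₀ + γ := by
  simp [zdir]

theorem add_zdir_ne {i : ι} (h : i ≠ i₀) (y : ℝ × (ι → ℝ)) (γ d : ℝ) :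
    (y + γ • zdir i₀ d).2 i = y.2 i := by
  simp [zdir, Pi.single_eq_of_ne h]

theorem update_add_zdir (y : ℝ × (ι → ℝ)) (γ d : ℝ) :
    Function.update (y + γ • zdir i₀ d).2 i₀ 0 = Function.update y.2 i₀ 0 := by
  funext i
  by_cases h : i = i₀
  · subst h
    simp
  · rw [Function.update_of_ne h, Function.update_of_ne h, add_zdir_ne h]

/-- **(N)** The coordinates other than `i₀` do not change, and the gauge changes by at most
`d |γ|`. -/
theorem kap_add_zdir {s : ℝ × (ι → ℝ)} (h0 : -1 < kap s i₀) (h1 : kap s i₀ < 1) (hs : s ≠ 0) :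
    ∃ U ∈ 𝓝 s, ∀ d ∈ Icc (0 : ℝ) 1, (d = 0 ∨ ‖s.2‖ = s.1) → ∀ y ∈ U, ∀ γ : ℝ,
      y + γ • zdir i₀ d ∈ U → (∀ i, i ≠ i₀ → kap (y + γ • zdir i₀ d) i = kap y i) ∧
        |‖y + γ • zdir i₀ d‖ - ‖y‖| ≤ d * |γ| := by
  have hd := zY_den_pos (i₀ := i₀) hs
  have hlt : |s.2 i₀| < zm i₀ s := by
    by_contra hge
    have hge := not_lt.mp hge
    have e := kap_apply i₀ i₀ s
    rw [max_eq_right hge] at e
    have hq : 0 < |s.2 i₀| := by
      by_contra hq
      have hq := not_lt.mp hq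
      have : max (zm i₀ s) (|s.2 i₀| / 4) ≤ 0 := max_le (hge.trans hq) (by linarith)
      linarith
    rcases lt_or_ge (s.2 i₀) 0 with h | h
    · rw [abs_of_neg h, div_neg, div_self h.ne] at e
      linarith
    · rw [abs_of_nonneg h, div_self (by rw [abs_of_nonneg h] at hq; exact hq.ne')] at e
      linarith
  let U : Set (ℝ × (ι → ℝ)) := {y | |y.2 i₀| < zm i₀ y ∧
    (‖s.2‖ = s.1 → |y.1| < 2 * ‖Function.update y.2 i₀ 0‖)}
  have hU : U ∈ 𝓝 s := by
    have c1 : Continuous fun y : ℝ × (ι → ℝ) => |y.2 i₀| := (continuous_co i₀).abs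
    have e1 : ∀ᶠ y in 𝓝 s, |y.2 i₀| < zm i₀ y :=
      c1.continuousAt.eventually_lt continuous_zm.continuousAt hlt
    have e2 : ∀ᶠ y in 𝓝 s, ‖s.2‖ = s.1 → |y.1| < 2 * ‖Function.update y.2 i₀ 0‖ := by
      by_cases h : ‖s.2‖ = s.1
      · have c2 : Continuous fun y : ℝ × (ι → ℝ) => |y.1| := continuous_fst.abs
        have c3 : Continuous fun y : ℝ × (ι → ℝ) => 2 * ‖Function.update y.2 i₀ (0 : ℝ)‖ :=
          continuous_const.mul (continuous_snd.update i₀ continuous_const).norm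
        have hu : 0 ≤ s.1 := h ▸ norm_nonneg _
        have h3 : |s.1| < 2 * ‖Function.update s.2 i₀ (0 : ℝ)‖ := by
          rw [abs_of_nonneg hu]
          have h4 := norm_eq_max i₀ s.2
          rw [h] at h4
          rcases le_total ‖Function.update s.2 i₀ (0 : ℝ)‖ |s.2 i₀| with h5 | h5
          · rw [max_eq_right h5] at h4
            unfold zm at hlt
            rcases lt_max_iff.mp hlt with h6 | h6
            · linarith
            · rw [abs_of_nonneg hu] at h6
              linarith [abs_nonneg (s.2 i₀)]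
          · rw [max_eq_left h5] at h4
            have h6 : 0 < s.1 := by
              rcases hu.eq_or_lt with h7 | h7
              · exfalso
                rw [← h7] at h
                exact hs (Prod.ext h7.symm (norm_eq_zero.mp h))
              · exact h7
            linarith
        exact (c2.continuousAt.eventually_lt c3.continuousAt h3).mono fun y hy _ => hy
      · exact Eventually.of_forall fun y hy => absurd hy h
    exact e1.and e2
  refine ⟨U, hU, fun d hd' hcase y hy γ hy' => ?_⟩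
  set y' := y + γ • zdir i₀ d with hy'def
  have hup : Function.update y'.2 i₀ 0 = Function.update y.2 i₀ 0 := update_add_zdir y γ d
  have hf : y'.1 = y.1 - γ * d := add_zdir_fst y γ d
  have hzm : zm i₀ y' = zm i₀ y := by
    unfold zm
    rw [hup]
    rcases hcase with h | h
    · rw [hf, h, mul_zero, sub_zero]
    · have h2 := hy.2 h
      have h3 := hy'.2 h
      rw [hup] at h3
      rw [max_eq_left (by linarith), max_eq_left (by linarith)]
  refine ⟨fun i hi => ?_, ?_⟩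
  · rw [kap_apply i₀ i, kap_apply i₀ i, max_eq_left hy'.1.le, max_eq_left hy.1.le, hzm,
      hy'def, add_zdir_ne hi]
  · have key : ∀ z ∈ U, ‖z‖ = max |z.1| ‖Function.update z.2 i₀ 0‖ := by
      intro z hz
      have e1 : ‖z‖ = max |z.1| ‖z.2‖ := rfl
      rw [e1, norm_eq_max i₀ z.2]
      have h2 : |z.2 i₀| ≤ max |z.1| ‖Function.update z.2 i₀ 0‖ := by
        refine hz.1.le.trans (max_le (le_max_right _ _) ?_)
        exact (by linarith [abs_nonneg z.1] : |z.1| / 2 ≤ |z.1|).trans (le_max_left _ _)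
      rw [← max_assoc, max_eq_left h2]
    rw [key y' hy', key y hy, hup]
    refine (abs_max_sub_max_le_abs _ _ _).trans ?_
    refine (abs_abs_sub_abs_le _ _).trans ?_
    rw [hf]
    have e : y.1 - γ * d - y.1 = -(γ * d) := by ring
    rw [e, abs_neg, abs_mul, abs_of_nonneg hd'.1, mul_comm]

/-- **(Y7)** Growth of the ramp function. -/
theorem zY_growth {s : ℝ × (ι → ℝ)} (hle : ‖s.2‖ ≤ s.1) (hpos : 0 < s.2 i₀) :
    ∃ U ∈ 𝓝 s, ∀ d ∈ Icc (0 : ℝ) 1, ∀ y ∈ U, ∀ γ : ℝ, 0 ≤ γ → y + γ • zdir i₀ d ∈ U →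
      γ / ‖s‖ / 2 ≤ zY i₀ (y + γ • zdir i₀ d) - zY i₀ y ∧
      zY i₀ (y + γ • zdir i₀ d) - zY i₀ y ≤ 20 / ‖s‖ * γ := by
  have hp : s.2 i₀ ≤ ‖s.2‖ := by
    have := norm_le_pi_norm s.2 i₀
    rw [Real.norm_eq_abs] at this
    exact (le_abs_self _).trans this
  have hu : 0 < s.1 := by linarith
  have hg : ‖s‖ = s.1 := by
    have e1 : ‖s‖ = max |s.1| ‖s.2‖ := rfl
    rw [e1, abs_of_pos hu, max_eq_left hle]
  rw [hg]
  set g := s.1 with hgdef
  have hzm1 : g / 2 ≤ zm i₀ s := by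
    have := le_max_right ‖Function.update s.2 i₀ 0‖ (|s.1| / 2)
    rw [abs_of_pos hu] at this
    unfold zm
    rw [abs_of_pos hu]
    exact this
  have hzm2 : zm i₀ s ≤ g := by
    unfold zm
    rw [abs_of_pos hu]
    exact max_le ((norm_update_le i₀ s.2).trans hle) (by linarith)
  let U : Set (ℝ × (ι → ℝ)) := {y | 0 < y.2 i₀ ∧ y.2 i₀ < 2 * g ∧ g / 4 < zm i₀ y ∧
    zm i₀ y < 2 * g ∧ |y.2 i₀| / 4 < zm i₀ y ∧ 0 < y.1}
  have hU : U ∈ 𝓝 s := by
    have c0 := continuous_co i₀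
    have c1 : Continuous fun y : ℝ × (ι → ℝ) => |y.2 i₀| / 4 := c0.abs.div_const 4
    have e1 : ∀ᶠ y in 𝓝 s, 0 < (fun y : ℝ × (ι → ℝ) => y.2 i₀) y :=
      c0.continuousAt.eventually (lt_mem_nhds hpos)
    have e2 : ∀ᶠ y in 𝓝 s, (fun y : ℝ × (ι → ℝ) => y.2 i₀) y < 2 * g :=
      c0.continuousAt.eventually (gt_mem_nhds (by linarith))
    have e3 : ∀ᶠ y in 𝓝 s, g / 4 < zm i₀ y :=
      continuous_zm.continuousAt.eventually (lt_mem_nhds (by linarith))
    have e4 : ∀ᶠ y in 𝓝 s, zm i₀ y < 2 * g :=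
      continuous_zm.continuousAt.eventually (gt_mem_nhds (by linarith))
    have e5 : ∀ᶠ y in 𝓝 s, |y.2 i₀| / 4 < zm i₀ y :=
      c1.continuousAt.eventually_lt continuous_zm.continuousAt (by
        rw [abs_of_pos hpos]
        linarith)
    have e6 : ∀ᶠ y : ℝ × (ι → ℝ) in 𝓝 s, 0 < y.1 :=
      continuous_fst.continuousAt.eventually (lt_mem_nhds hu)
    exact e1.and (e2.and (e3.and (e4.and (e5.and e6))))
  refine ⟨U, hU, fun d hd y hy γ hγ hy' => ?_⟩
  set y' := y + γ • zdir i₀ d with hy'def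
  obtain ⟨a1, a2, a3, a4, a5, a6⟩ := hy
  obtain ⟨b1, b2, b3, b4, b5, b6⟩ := hy'
  have hs1 : y'.2 i₀ = y.2 i₀ + γ := add_zdir_same y γ d
  have hf : y'.1 = y.1 - γ * d := add_zdir_fst y γ d
  have hup : Function.update y'.2 i₀ 0 = Function.update y.2 i₀ 0 := update_add_zdir y γ d
  have hY' : zY i₀ y' = (y.2 i₀ + γ) / zm i₀ y' := by
    rw [zY, max_eq_left b5.le, hs1]
  have hY : zY i₀ y = y.2 i₀ / zm i₀ y := by rw [zY, max_eq_left a5.le]
  have hγd : 0 ≤ γ * d := mul_nonneg hγ hd.1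
  -- `zm` decreases, by at most `γ / 2`
  have hm0 : zm i₀ y' ≤ zm i₀ y := by
    unfold zm
    rw [hup]
    refine max_le_max le_rfl ?_
    rw [abs_of_pos a6, abs_of_pos b6, hf]
    linarith
  have hm1 : |zm i₀ y' - zm i₀ y| ≤ γ / 2 := by
    unfold zm
    rw [hup, max_comm, max_comm _ (|y.1| / 2)]
    refine (abs_max_sub_max_le_abs _ _ _).trans ?_
    have e : |y'.1| / 2 - |y.1| / 2 = (|y'.1| - |y.1|) / 2 := by ring
    rw [e, abs_div, abs_two]
    have h2 : |(|y'.1| - |y.1|)| ≤ γ := by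
      refine (abs_abs_sub_abs_le _ _).trans ?_
      rw [hf]
      have e : y.1 - γ * d - y.1 = -(γ * d) := by ring
      rw [e, abs_neg, abs_of_nonneg (mul_nonneg hγ hd.1)]
      exact mul_le_of_le_one_right hγ hd.2
    linarith
  have m0 : 0 < zm i₀ y := by linarith
  have m0' : 0 < zm i₀ y' := by linarith
  rw [hY, hY']
  set m := zm i₀ y with hm
  set m' := zm i₀ y' with hm'
  set q := y.2 i₀ with hq
  have hg0 : 0 < g := hu
  have e : (q + γ) / m' - q / m = γ / m' + q * (m - m') / (m * m') := by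
    field_simp
    ring
  rw [e]
  constructor
  · have h1 : γ / g / 2 ≤ γ / m' := by
      rw [div_div]
      exact div_le_div_of_nonneg_left hγ m0' (by linarith)
    have h2 : 0 ≤ q * (m - m') / (m * m') := by
      have : 0 ≤ m - m' := by linarith
      positivity
    linarith
  · have h1 : γ / m' ≤ γ / (g / 4) := div_le_div_of_nonneg_left hγ (by positivity) b3.le
    have h2 : q * (m - m') / (m * m') ≤ 2 * g * (γ / 2) / (g / 4 * (g / 4)) := by
      have h3 : m - m' ≤ γ / 2 := by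
        have := (abs_le.mp hm1).1
        linarith
      have h4 : 0 ≤ m - m' := by linarith
      refine div_le_div₀ (by positivity) ?_ (by positivity) ?_
      · exact mul_le_mul a2.le h3 h4 (by positivity)
      · exact mul_le_mul a3.le b3.le (by positivity) m0.le
    have h5 : γ / (g / 4) = 4 / g * γ := by
      field_simp
    have h6 : 2 * g * (γ / 2) / (g / 4 * (g / 4)) = 16 / g * γ := by
      field_simp
      norm_num
    have h7 : 20 / g * γ = 4 / g * γ + 16 / g * γ := by ring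
    rw [h5] at h1
    rw [h6] at h2
    rw [h7]
    linarith

end Vale.Agent.P268.T.Z293
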