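import Vale.Agent.P268.T.DeltaR

/-!
# P268, topological half: windows

Precomposition of the data of a normal form with a self map of the cube which preserves the
boundary; windows `x ↦ update x i₀ (φ (x i₀))`, with `φ` continuous, `φ 1 = 1`, `φ (-1) = -1`.
The normal form of the precomposed data is equivalent to the given one.
-/

set_option linter.unusedSectionVars false

namespace Vale.Agent.P268.T

open Set Filter Topology Metric

variable {T P V A : Type*} [TopologicalSpace T] [NormedAddCommGroup P] [NormedSpace ℝ P]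
  [NormedAddCommGroup V] [InnerProductSpace ℝ V]

/-- A continuous family of self maps of the cube preserving the boundary. -/
structure QMap (s : Set T) (θ : T → P → P) : Prop where
  c : ContinuousOn (fun q : T × P => θ q.1 q.2) (s ×ˢ closedBall 0 1)
  m : ∀ t ∈ s, ∀ x ∈ closedBall (0 : P) 1, θ t x ∈ closedBall (0 : P) 1
  f : ∀ t ∈ s, ∀ x : P, ‖x‖ = 1 → ‖θ t x‖ = 1

/-- **Precomposition of data**. -/
theorem BFam.comp_map {s : Set T} {e : V} {b ν : T → A → P → V} (h : BFam s e b ν)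
    {θ : T → P → P} (hθ : QMap s θ) :
    BFam s e (fun t a x => b t a (θ t x)) (fun t a x => ν t a (θ t x)) where
  cb := fun a => (h.cb a).comp (continuousOn_fst.prodMk hθ.c) fun _ hq => ⟨hq.1, hθ.m _ hq.1 _ hq.2⟩
  cn := fun a => (h.cn a).comp (continuousOn_fst.prodMk hθ.c) fun _ hq => ⟨hq.1, hθ.m _ hq.1 _ hq.2⟩
  nn := fun t ht a x hx => h.nn t ht a _ (hθ.m t ht x hx)
  inj := fun t ht x hx => h.inj t ht _ (hθ.m t ht x hx)
  bh := fun t ht a x hx => h.bh t ht a _ (hθ.f t ht x hx)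
  nh := fun t ht a x hx => h.nh t ht a _ (hθ.f t ht x hx)

theorem BData.comp_map [Fintype A] {e : V} {b ν : A → P → V} (h : BData e b ν) {s : Set T} {θ : T → P → P}
    (hθ : QMap s θ) : BFam s e (fun t a x => b a (θ t x)) (fun t a x => ν a (θ t x)) :=
  (h.const s).comp_map hθ

/-- Admissible parameters are preserved by precomposition. -/
theorem Adm.comp_map {ε R M : ℝ} {b : A → P → V} (h : Adm ε R M b) {θ : P → P}
    (hθ : ∀ x ∈ closedBall (0 : P) 1, θ x ∈ closedBall (0 : P) 1) :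
    Adm ε R M (fun a x => b a (θ x)) where
  hε := h.hε
  hR := h.hR
  hM := h.hM
  hb := fun a x hx => h.hb a _ (hθ x hx)
  hd := fun a a' ha x hx => h.hd a a' ha _ (hθ x hx)

/-- **The normal form does not change under precomposition with a self map of the cube isotopic
to the identity.** -/
theorem NN_veq_comp [ProperSpace P] [ProperSpace V] [Fintype A] {e : V} (he : ‖e‖ = 1)
    {b ν : A → P → V} (h : BData e b ν) {θ : ℝ → P → P} (hθ : QMap (Icc (0 : ℝ) 1) θ)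
    (h0 : ∀ x, θ 0 x = x) {ε R M ε' R' M' : ℝ}
    (hA : Adm ε R M b) (hA' : Adm ε' R' M' (fun a x => b a (θ 1 x))) :
    VEq (NN e ε R M b ν) (NN e ε' R' M' (fun a x => b a (θ 1 x)) (fun a x => ν a (θ 1 x))) := by
  have h1 := h.comp_map hθ
  have e1 : (fun a x => b a (θ 0 x)) = b := by funext a x; rw [h0]
  have e2 : (fun a x => ν a (θ 0 x)) = ν := by funext a x; rw [h0]
  have h2 := NN_veq_of_homotopy he (b := fun t a x => b a (θ t x)) (ν := fun t a x => ν a (θ t x))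
    h1 (ε := ε) (R := R) (M := M) (ε' := ε') (R' := R') (M' := M') (by rw [e1]; exact hA) hA'
  rw [e1, e2] at h2
  exact h2

/-! ### Windows -/

section Win

variable {ι : Type*} [Fintype ι] [DecidableEq ι]

/-- The map `x ↦ update x i₀ (φ (x i₀))`. -/
def upd (i₀ : ι) (φ : ℝ → ℝ) (x : ι → ℝ) : ι → ℝ := Function.update x i₀ (φ (x i₀))

theorem upd_same (i₀ : ι) (φ : ℝ → ℝ) (x : ι → ℝ) : upd i₀ φ x i₀ = φ (x i₀) := by
  simp [upd]

theorem upd_ne {i₀ i : ι} (h : i ≠ i₀) (φ : ℝ → ℝ) (x : ι → ℝ) : upd i₀ φ x i = x i := by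
  simp [upd, h]

theorem norm_le_one_iff (x : ι → ℝ) : ‖x‖ ≤ 1 ↔ ∀ i, |x i| ≤ 1 := by
  rw [pi_norm_le_iff_of_nonneg zero_le_one]
  simp [Real.norm_eq_abs]

theorem upd_mem {i₀ : ι} {φ : ℝ → ℝ} (h : ∀ y ∈ Icc (-1 : ℝ) 1, φ y ∈ Icc (-1 : ℝ) 1)
    {x : ι → ℝ} (hx : x ∈ closedBall (0 : ι → ℝ) 1) : upd i₀ φ x ∈ closedBall (0 : ι → ℝ) 1 := by
  rw [mem_closedBall_zero_iff, norm_le_one_iff] at hx ⊢
  intro i
  by_cases hi : i = i₀
  · subst hi
    rw [upd_same]
    exact abs_le.mpr (h _ (abs_le.mp (hx i)))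
  · rw [upd_ne hi]
    exact hx i

/-- A point of the cube is on its boundary iff one coordinate is `±1`. -/
theorem norm_eq_one_iff [Nonempty ι] {x : ι → ℝ} (hx : ‖x‖ ≤ 1) : ‖x‖ = 1 ↔ ∃ i, |x i| = 1 := by
  constructor
  · intro h
    by_contra hne
    push Not at hne
    have h1 : ∀ i, |x i| < 1 := fun i =>
      lt_of_le_of_ne ((norm_le_one_iff x).mp hx i) (hne i)
    have h2 : ‖x‖ < 1 := by
      rw [pi_norm_lt_iff zero_lt_one]
      simpa [Real.norm_eq_abs] using h1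
    linarith
  · rintro ⟨i, hi⟩
    refine le_antisymm hx ?_
    have := norm_le_pi_norm x i
    rwa [Real.norm_eq_abs, hi] at this

theorem norm_upd {i₀ : ι} {φ : ℝ → ℝ} (h : ∀ y ∈ Icc (-1 : ℝ) 1, φ y ∈ Icc (-1 : ℝ) 1)
    (h1 : φ 1 = 1) (h2 : φ (-1) = -1) {x : ι → ℝ} (hx : ‖x‖ = 1) : ‖upd i₀ φ x‖ = 1 := by
  have : Nonempty ι := ⟨i₀⟩
  have hm : ‖upd i₀ φ x‖ ≤ 1 := by
    have := upd_mem (i₀ := i₀) h (x := x) (by rw [mem_closedBall_zero_iff, hx])
    rwa [mem_closedBall_zero_iff] at this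
  rw [norm_eq_one_iff hm]
  obtain ⟨i, hi⟩ := (norm_eq_one_iff hx.le).mp hx
  refine ⟨i, ?_⟩
  by_cases h3 : i = i₀
  · subst h3
    rw [upd_same]
    rcases eq_or_eq_neg_of_abs_eq hi with h4 | h4
    · rw [h4, h1, abs_one]
    · rw [h4, h2, abs_neg, abs_one]
  · rw [upd_ne h3]
    exact hi

/-- A continuous family of self maps of `[-1, 1]` fixing the ends. -/
structure WMap (s : Set T) (φ : T → ℝ → ℝ) : Prop where
  c : ContinuousOn (fun q : T × ℝ => φ q.1 q.2) (s ×ˢ Icc (-1 : ℝ) 1)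
  m : ∀ t ∈ s, ∀ y ∈ Icc (-1 : ℝ) 1, φ t y ∈ Icc (-1 : ℝ) 1
  r : ∀ t ∈ s, φ t 1 = 1
  l : ∀ t ∈ s, φ t (-1) = -1

theorem WMap.qMap {s : Set T} {φ : T → ℝ → ℝ} (h : WMap s φ) (i₀ : ι) :
    QMap s fun t => upd i₀ (φ t) where
  c := by
    rw [continuousOn_pi]
    intro i
    by_cases hi : i = i₀
    · subst hi
      have h1 : ContinuousOn (fun q : T × (ι → ℝ) => φ q.1 (q.2 i)) (s ×ˢ closedBall 0 1) := by
        refine h.c.comp (g := fun q : T × ℝ => φ q.1 q.2)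
          (f := fun q : T × (ι → ℝ) => (q.1, q.2 i)) (by fun_prop) ?_
        rintro q ⟨hq1, hq2⟩
        rw [mem_closedBall_zero_iff, norm_le_one_iff] at hq2
        exact ⟨hq1, abs_le.mp (hq2 i)⟩
      refine h1.congr fun q _ => ?_
      rw [upd_same]
    · have h1 : ContinuousOn (fun q : T × (ι → ℝ) => q.2 i) (s ×ˢ closedBall 0 1) := by fun_prop
      refine h1.congr fun q _ => ?_
      rw [upd_ne hi]
  m := fun t ht x hx => upd_mem (h.m t ht) hx
  f := fun t ht x hx => norm_upd (h.m t ht) (h.r t ht) (h.l t ht) hx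

/-- The straight isotopy from the identity to a window. -/
theorem WMap.line {φ : ℝ → ℝ} (hc : ContinuousOn φ (Icc (-1 : ℝ) 1))
    (hm : ∀ y ∈ Icc (-1 : ℝ) 1, φ y ∈ Icc (-1 : ℝ) 1) (hr : φ 1 = 1) (hl : φ (-1) = -1) :
    WMap (Icc (0 : ℝ) 1) fun t y => (1 - t) * y + t * φ y where
  c := by
    have h1 : ContinuousOn (fun q : ℝ × ℝ => φ q.2) (Icc (0 : ℝ) 1 ×ˢ Icc (-1 : ℝ) 1) :=
      hc.comp continuousOn_snd fun q hq => hq.2
    have h2 : ContinuousOn (fun q : ℝ × ℝ => (1 - q.1) * q.2) (Icc (0 : ℝ) 1 ×ˢ Icc (-1 : ℝ) 1) :=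
      by fun_prop
    exact h2.add (continuousOn_fst.mul h1)
  m := fun t ht y hy => by
    have h1 := hm y hy
    have h0 : 0 ≤ 1 - t := by linarith [ht.2]
    constructor
    · nlinarith [mul_le_mul_of_nonneg_left hy.1 h0, mul_le_mul_of_nonneg_left h1.1 ht.1]
    · nlinarith [mul_le_mul_of_nonneg_left hy.2 h0, mul_le_mul_of_nonneg_left h1.2 ht.1]
  r := fun t _ => by rw [hr]; ring
  l := fun t _ => by rw [hl]; ring

/-- **Windows do not change the normal form.** -/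
theorem NN_veq_win [ProperSpace V] [Fintype A] {e : V} (he : ‖e‖ = 1)
    {b ν : A → (ι → ℝ) → V} (h : BData e b ν) (i₀ : ι) {φ : ℝ → ℝ}
    (hc : ContinuousOn φ (Icc (-1 : ℝ) 1)) (hm : ∀ y ∈ Icc (-1 : ℝ) 1, φ y ∈ Icc (-1 : ℝ) 1)
    (hr : φ 1 = 1) (hl : φ (-1) = -1) {ε R M ε' R' M' : ℝ} (hA : Adm ε R M b)
    (hA' : Adm ε' R' M' (fun a x => b a (upd i₀ φ x))) :
    VEq (NN e ε R M b ν)
      (NN e ε' R' M' (fun a x => b a (upd i₀ φ x)) (fun a x => ν a (upd i₀ φ x))) := by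
  have e1 : upd i₀ (fun y => (1 - (1 : ℝ)) * y + 1 * φ y) = upd i₀ φ := by
    congr 1
    funext y
    ring
  have e0 : ∀ x, upd i₀ (fun y => (1 - (0 : ℝ)) * y + 0 * φ y) x = x := by
    intro x
    have : (fun y : ℝ => (1 - (0 : ℝ)) * y + 0 * φ y) = fun y => y := by
      funext y
      ring
    rw [this]
    simp [upd]
  have h1 := NN_veq_comp he h (θ := fun t => upd i₀ fun y => (1 - t) * y + t * φ y)
    ((WMap.line hc hm hr hl).qMap i₀) e0 (ε := ε) (R := R) (M := M) (ε' := ε') (R' := R') (M' := M')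
    hA (by rw [e1]; exact hA')
  rw [e1] at h1
  exact h1

end Win

end Vale.Agent.P268.T
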