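import Vale.Agent.P268.T.H354.Win
import Vale.Agent.P268.T.H354.Window

/-!
# P268, topological half: the windowed data of ZIP
-/

set_option linter.unusedSectionVars false

namespace Vale.Agent.P268.T.Z293

open Set Filter Topology Metric

variable {ι : Type*} [Fintype ι] [DecidableEq ι] {i₀ : ι}
variable {V A : Type*} [NormedAddCommGroup V] [InnerProductSpace ℝ V] [DecidableEq A] [Fintype A]
variable {e : V} {ε R M : ℝ} {j k : A} {b ν : A → (ι → ℝ) → V}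

/-- At a point of the boundary the window does not change the data, or stays on the boundary. -/
theorem ZDat.face (h : ZDat i₀ e ε j k b ν) {c : ℝ} (hc : 0 ≤ c) {x : ι → ℝ} (hx : ‖x‖ = 1)
    (i : A) : ∃ y : ι → ℝ, ‖y‖ = 1 ∧ b i (zPhi i₀ c x) = b i y ∧ ν i (zPhi i₀ c x) = ν i y := by
  have hx' : x ∈ closedBall (0 : ι → ℝ) 1 := by rw [mem_closedBall_zero_iff, hx]
  rcases norm_zPhi (i₀ := i₀) hc hx with h1 | ⟨h1, h2⟩
  · exact ⟨_, h1, rfl, rfl⟩
  · obtain ⟨h3, h4⟩ := h.cR i _ (zPhi_mem (i₀ := i₀) c hx') x hx' h2 (by rw [h1]; norm_num)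
    exact ⟨x, hx, h3, h4⟩

/-- **(D1)** The windowed data are a family of data. -/
theorem ZDat.wfam (h : ZDat i₀ e ε j k b ν) :
    BFam (Icc (0 : ℝ) 5) e (fun c i x => b i (zPhi i₀ c x)) (fun c i x => ν i (zPhi i₀ c x)) where
  cb := fun a => by
    have h1 : ContinuousOn (b a) (closedBall 0 1) := by
      have := h.dat.cb a
      have h2 : ContinuousOn (fun x : ι → ℝ => ((), x)) (closedBall 0 1) := by fun_prop
      exact this.comp h2 fun x hx => ⟨mem_univ _, hx⟩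
    exact h1.comp continuous_zPhi.continuousOn fun q hq => zPhi_mem q.1 hq.2
  cn := fun a => by
    have h1 : ContinuousOn (ν a) (closedBall 0 1) := by
      have := h.dat.cn a
      have h2 : ContinuousOn (fun x : ι → ℝ => ((), x)) (closedBall 0 1) := by fun_prop
      exact this.comp h2 fun x hx => ⟨mem_univ _, hx⟩
    exact h1.comp continuous_zPhi.continuousOn fun q hq => zPhi_mem q.1 hq.2
  nn := fun t _ a x hx => h.dat.nn () (mem_univ _) a _ (zPhi_mem t hx)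
  inj := fun t _ x hx => h.dat.inj () (mem_univ _) _ (zPhi_mem t hx)
  bh := fun t ht a x hx => by
    obtain ⟨y, h1, h2, -⟩ := h.face ht.1 hx a
    show inner ℝ (b a (zPhi i₀ t x)) e = 0
    rw [h2]
    exact h.dat.bh () (mem_univ _) a y h1
  nh := fun t ht a x hx => by
    obtain ⟨y, h1, -, h2⟩ := h.face ht.1 hx a
    show ν a (zPhi i₀ t x) = e
    rw [h2]
    exact h.dat.nh () (mem_univ _) a y h1

/-- **(D2)** -/
theorem adm_zPhi (hA : Adm ε R M b) (c : ℝ) : Adm ε R M (fun i x => b i (zPhi i₀ c x)) :=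
  hA.comp_map fun _ hx => zPhi_mem c hx

/-- **(D3)** -/
theorem ZDat.wnu (h : ZDat i₀ e ε j k b ν) (c : ℝ) {x : ι → ℝ}
    (hx : x ∈ closedBall (0 : ι → ℝ) 1) (hx0 : -(1 / 4) ≤ x i₀) :
    ν k (zPhi i₀ c x) = ν j (zPhi i₀ c x) :=
  h.nu _ (zPhi_mem c hx) (by rw [zPhi_same]; exact zphi_ge hx0)

theorem ZDat.wperp (h : ZDat i₀ e ε j k b ν) (c : ℝ) {x : ι → ℝ}
    (hx : x ∈ closedBall (0 : ι → ℝ) 1) (hx0 : -(1 / 4) ≤ x i₀) :
    inner ℝ (b k (zPhi i₀ c x) - b j (zPhi i₀ c x)) (ν j (zPhi i₀ c x)) = 0 :=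
  h.perp _ (zPhi_mem c hx) (by rw [zPhi_same]; exact zphi_ge hx0)

theorem ZDat.wsepi (h : ZDat i₀ e ε j k b ν) (c : ℝ) {i : A} (hij : i ≠ j) (hik : i ≠ k)
    {x : ι → ℝ} (hx : x ∈ closedBall (0 : ι → ℝ) 1) (hx0 : -(1 / 4) ≤ x i₀) {θ : ℝ}
    (hθ : θ ∈ Icc (0 : ℝ) 1) :
    4 * ε ≤ ‖b i (zPhi i₀ c x) -
      (b k (zPhi i₀ c x) + θ • (b j (zPhi i₀ c x) - b k (zPhi i₀ c x)))‖ :=
  h.sepi i hij hik _ (zPhi_mem c hx) (by rw [zPhi_same]; exact zphi_ge hx0) θ hθ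

/-- **(D4)** The windowed data do not depend on `x i₀` near the ramp. -/
theorem ZDat.wconst (h : ZDat i₀ e ε j k b ν) {c : ℝ} (hc : 0 ≤ c) (i : A) {x x' : ι → ℝ}
    (hx : x ∈ closedBall (0 : ι → ℝ) 1) (hxx : ∀ l, l ≠ i₀ → x l = x' l)
    (h1 : c - 1 / 8 ≤ x i₀) (h2 : x i₀ ≤ c) (h1' : c - 1 / 8 ≤ x' i₀) (h2' : x' i₀ ≤ c) :
    b i (zPhi i₀ c x) = b i (zPhi i₀ c x') ∧ ν i (zPhi i₀ c x) = ν i (zPhi i₀ c x') := by
  have hup : Function.update (zPhi i₀ c x) i₀ (zphi c (x' i₀)) = zPhi i₀ c x' := by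
    funext l
    by_cases hl : l = i₀
    · subst hl
      rw [Function.update_self, zPhi_same]
    · rw [Function.update_of_ne hl, zPhi_ne hl, zPhi_ne hl, hxx l hl]
  by_cases he : zphi c (x i₀) = zphi c (x' i₀)
  · have : zPhi i₀ c x = zPhi i₀ c x' := by
      rw [← hup, ← he, ← zPhi_same (i₀ := i₀) c x, Function.update_eq_self]
    rw [this]
    exact ⟨rfl, rfl⟩
  · have w := zphi_window hc h1 h2
    have w' := zphi_window hc h1' h2'
    have hc3 : c ≤ 3 / 8 := by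
      rcases w with w | w
      · rcases w' with w' | w'
        · exact absurd (w.trans w'.symm) he
        · exact w'.1
      · exact w.1
    have a1 : |c - 1 / 8| ≤ (1 / 4 : ℝ) := abs_le.mpr ⟨by linarith, by linarith⟩
    have a2 : |zphi c (x i₀)| ≤ 1 / 4 := by
      rcases w with w | w
      · rw [w]; exact a1
      · exact w.2
    have a3 : |zphi c (x' i₀)| ≤ 1 / 4 := by
      rcases w' with w' | w'
      · rw [w']; exact a1
      · exact w'.2
    obtain ⟨e1, e2⟩ := h.cL i _ (zPhi_mem (i₀ := i₀) c hx) (zphi c (x' i₀))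
      (by rw [zPhi_same]; exact a2) a3
    rw [hup] at e1 e2
    exact ⟨e1.symm, e2.symm⟩

/-- **(D5)** The windowed data are constant near the face `x i₀ = 1`, left of the ramp. -/
theorem ZDat.wconst' (h : ZDat i₀ e ε j k b ν) {c : ℝ} (i : A) {x x' : ι → ℝ}
    (hx : x ∈ closedBall (0 : ι → ℝ) 1) (hx' : x' ∈ closedBall (0 : ι → ℝ) 1)
    (h1 : 7 / 8 ≤ x i₀) (h2 : x i₀ ≤ c) (h1' : 7 / 8 ≤ x' i₀) (h2' : x' i₀ ≤ c) :
    b i (zPhi i₀ c x) = b i (zPhi i₀ c x') ∧ ν i (zPhi i₀ c x) = ν i (zPhi i₀ c x') := by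
  refine h.cR i _ (zPhi_mem c hx) _ (zPhi_mem c hx') ?_ ?_
  · rw [zPhi_same]
    have := sub_le_zphi h2
    linarith
  · rw [zPhi_same]
    have := sub_le_zphi h2'
    linarith

end Vale.Agent.P268.T.Z293
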