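import Vale.Agent.P268.T.H354.Window

/-!
# P268, topological half: the windows of the zip

`zw c`, for `c ∈ [1/4, 3/4]`: the identity on `[-1, 1/8]`, constant `= c` on `[c - 1/16, c + 1/16]`,
`1` at `1`, piecewise linear.  `zwc c := zw (max (1/4) (min c (3/4)))`.
-/

set_option linter.unusedSectionVars false

namespace Vale.Agent.P268.T

open Set Filter Topology Metric

/-- The lower branch of the window, through `(1/8, 1/8)` and `(c - 1/16, c)`. -/
noncomputable def zlo (c y : ℝ) : ℝ := 1 / 8 + (c - 1 / 8) / (c - 3 / 16) * (y - 1 / 8)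

/-- The upper branch of the window, through `(c + 1/16, c)` and `(1, 1)`. -/
noncomputable def zhi (c y : ℝ) : ℝ := 1 + (1 - c) / (15 / 16 - c) * (y - 1)

/-- The window of the zip. -/
noncomputable def zw (c y : ℝ) : ℝ :=
  min y (1 / 8) + (max (min (zlo c (max y (1 / 8))) c) (zhi c (max y (1 / 8))) - 1 / 8)

variable {c y : ℝ}

theorem zlo_den (hc : 1 / 4 ≤ c) : 0 < c - 3 / 16 := by linarith

theorem zhi_den (hc : c ≤ 3 / 4) : 0 < 15 / 16 - c := by linarith

theorem zhi_le (hc' : c ≤ 3 / 4) (hy : y ≤ c + 1 / 16) : zhi c y ≤ c := by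
  have h := zhi_den hc'
  unfold zhi
  have h1 : (1 - c) / (15 / 16 - c) * (y - 1) ≤ (1 - c) / (15 / 16 - c) * (c + 1 / 16 - 1) :=
    mul_le_mul_of_nonneg_left (by linarith) (by
      apply div_nonneg <;> linarith)
  have h2 : (1 - c) / (15 / 16 - c) * (c + 1 / 16 - 1) = -(1 - c) := by
    rw [show c + 1 / 16 - 1 = -(15 / 16 - c) by ring, mul_neg, div_mul_cancel₀ _ h.ne']
  linarith

theorem le_zhi (hc' : c ≤ 3 / 4) (hy : c + 1 / 16 ≤ y) : c ≤ zhi c y := by
  have h := zhi_den hc'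
  unfold zhi
  have h1 : (1 - c) / (15 / 16 - c) * (c + 1 / 16 - 1) ≤ (1 - c) / (15 / 16 - c) * (y - 1) :=
    mul_le_mul_of_nonneg_left (by linarith) (by
      apply div_nonneg <;> linarith)
  have h2 : (1 - c) / (15 / 16 - c) * (c + 1 / 16 - 1) = -(1 - c) := by
    rw [show c + 1 / 16 - 1 = -(15 / 16 - c) by ring, mul_neg, div_mul_cancel₀ _ h.ne']
  linarith

theorem le_zlo (hc : 1 / 4 ≤ c) (hy : c - 1 / 16 ≤ y) : c ≤ zlo c y := by
  have h := zlo_den hc
  unfold zlo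
  have h1 : (c - 1 / 8) / (c - 3 / 16) * (c - 1 / 16 - 1 / 8) ≤
      (c - 1 / 8) / (c - 3 / 16) * (y - 1 / 8) :=
    mul_le_mul_of_nonneg_left (by linarith) (by
      apply div_nonneg <;> linarith)
  have h2 : (c - 1 / 8) / (c - 3 / 16) * (c - 1 / 16 - 1 / 8) = c - 1 / 8 := by
    rw [show c - 1 / 16 - 1 / 8 = c - 3 / 16 by ring, div_mul_cancel₀ _ h.ne']
  linarith

theorem zlo_le (hc : 1 / 4 ≤ c) (hy : y ≤ c - 1 / 16) : zlo c y ≤ c := by
  have h := zlo_den hc
  unfold zlo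
  have h1 : (c - 1 / 8) / (c - 3 / 16) * (y - 1 / 8) ≤
      (c - 1 / 8) / (c - 3 / 16) * (c - 1 / 16 - 1 / 8) :=
    mul_le_mul_of_nonneg_left (by linarith) (by
      apply div_nonneg <;> linarith)
  have h2 : (c - 1 / 8) / (c - 3 / 16) * (c - 1 / 16 - 1 / 8) = c - 1 / 8 := by
    rw [show c - 1 / 16 - 1 / 8 = c - 3 / 16 by ring, div_mul_cancel₀ _ h.ne']
  linarith

/-- To the right of `1/8`. -/
theorem zw_right (hy : 1 / 8 ≤ y) : zw c y = max (min (zlo c y) c) (zhi c y) := by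
  unfold zw
  rw [min_eq_right hy, max_eq_left hy]
  ring

/-- The window is the identity to the left of `1/8`. -/
theorem zw_left (hc : 1 / 4 ≤ c) (hc' : c ≤ 3 / 4) (hy : y ≤ 1 / 8) : zw c y = y := by
  unfold zw
  rw [min_eq_left hy, max_eq_right hy]
  have h1 : zlo c (1 / 8) = 1 / 8 := by unfold zlo; ring
  have h2 : zhi c (1 / 8) ≤ 1 / 8 := by
    unfold zhi
    have h := zhi_den hc'
    have h3 : 1 ≤ (1 - c) / (15 / 16 - c) := by
      rw [le_div_iff₀ h]
      linarith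
    nlinarith
  rw [h1, min_eq_left (by linarith), max_eq_left h2]
  ring

/-- The window is constant near `c`. -/
theorem zw_near (hc : 1 / 4 ≤ c) (hc' : c ≤ 3 / 4) (hy : |y - c| ≤ 1 / 16) : zw c y = c := by
  obtain ⟨h1, h2⟩ := abs_le.mp hy
  rw [zw_right (by linarith), min_eq_right (le_zlo hc (by linarith)),
    max_eq_left (zhi_le hc' (by linarith))]

theorem zw_one (hc' : c ≤ 3 / 4) : zw c 1 = 1 := by
  rw [zw_right (by norm_num)]
  have h1 : zhi c 1 = 1 := by unfold zhi; ring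
  rw [h1]
  exact max_eq_right ((min_le_right _ _).trans (by linarith))

/-- To the right of the window. -/
theorem le_zw (hc : 1 / 4 ≤ c) (hy : c ≤ y) : c ≤ zw c y := by
  rw [zw_right (by linarith)]
  exact (le_min (le_zlo hc (by linarith)) le_rfl).trans (le_max_left _ _)

/-- To the left of the window. -/
theorem zw_le (hc : 1 / 4 ≤ c) (hc' : c ≤ 3 / 4) (hy : y ≤ c) : zw c y ≤ c := by
  rcases le_total y (1 / 8) with h | h
  · rw [zw_left hc hc' h]
    exact hy
  · rw [zw_right h]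
    exact max_le (min_le_right _ _) (zhi_le hc' (by linarith))

theorem zw_le_one (hc : 1 / 4 ≤ c) (hc' : c ≤ 3 / 4) (hy : y ≤ 1) : zw c y ≤ 1 := by
  rcases le_total y (1 / 8) with h | h
  · rw [zw_left hc hc' h]
    exact hy
  · rw [zw_right h]
    refine max_le ((min_le_right _ _).trans (by linarith)) ?_
    unfold zhi
    have h3 : (1 - c) / (15 / 16 - c) * (y - 1) ≤ 0 :=
      mul_nonpos_of_nonneg_of_nonpos (div_nonneg (by linarith) (zhi_den hc').le) (by linarith)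
    linarith

/-- The window does not go below `1/8` to the right of `1/8`. -/
theorem le_zw_of_le (hc : 1 / 4 ≤ c) (hy : 1 / 8 ≤ y) : 1 / 8 ≤ zw c y := by
  rw [zw_right hy]
  refine le_max_of_le_left (le_min ?_ (by linarith))
  unfold zlo
  have : 0 ≤ (c - 1 / 8) / (c - 3 / 16) * (y - 1 / 8) :=
    mul_nonneg (div_nonneg (by linarith) (zlo_den hc).le) (by linarith)
  linarith

theorem zw_mem (hc : 1 / 4 ≤ c) (hc' : c ≤ 3 / 4) (hy : y ∈ Icc (-1 : ℝ) 1) :
    zw c y ∈ Icc (-1 : ℝ) 1 := by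
  refine ⟨?_, zw_le_one hc hc' hy.2⟩
  rcases le_total y (1 / 8) with h | h
  · rw [zw_left hc hc' h]
    exact hy.1
  · have := le_zw_of_le hc h
    linarith

/-- Where the data are constant on `[1/2, 1]`, and the window is at `c ≥ 1/2`, nothing changes to
the right of the window. -/
theorem half_le_zw (hc : 1 / 2 ≤ c) (hc' : c ≤ 3 / 4) (hy : c - 1 / 16 ≤ y) : 1 / 2 ≤ zw c y := by
  rcases le_total y c with h | h
  · rw [zw_near (by linarith) hc' (abs_le.mpr ⟨by linarith, by linarith⟩)]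
    exact hc
  · exact hc.trans (le_zw (by linarith) h)

theorem continuousOn_zw :
    ContinuousOn (fun q : ℝ × ℝ => zw q.1 q.2) (Icc (1 / 4 : ℝ) (3 / 4) ×ˢ univ) := by
  unfold zw zlo zhi
  have h1 : ContinuousOn (fun q : ℝ × ℝ => (q.1 - 1 / 8) / (q.1 - 3 / 16))
      (Icc (1 / 4 : ℝ) (3 / 4) ×ˢ univ) := by
    refine ContinuousOn.div (by fun_prop) (by fun_prop) ?_
    rintro q ⟨⟨h, -⟩, -⟩
    exact (zlo_den h).ne'
  have h2 : ContinuousOn (fun q : ℝ × ℝ => (1 - q.1) / (15 / 16 - q.1))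
      (Icc (1 / 4 : ℝ) (3 / 4) ×ˢ univ) := by
    refine ContinuousOn.div (by fun_prop) (by fun_prop) ?_
    rintro q ⟨⟨-, h⟩, -⟩
    exact (zhi_den h).ne'
  have h3 : ContinuousOn (fun q : ℝ × ℝ => max q.2 (1 / 8) - 1 / 8)
      (Icc (1 / 4 : ℝ) (3 / 4) ×ˢ univ) := by fun_prop
  have h4 : ContinuousOn (fun q : ℝ × ℝ => max q.2 (1 / 8) - 1)
      (Icc (1 / 4 : ℝ) (3 / 4) ×ˢ univ) := by fun_prop
  have h5 : ContinuousOn (fun q : ℝ × ℝ => min q.2 (1 / 8))
      (Icc (1 / 4 : ℝ) (3 / 4) ×ˢ univ) := by fun_prop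
  have h6 : ContinuousOn (fun q : ℝ × ℝ => 1 / 8 + (q.1 - 1 / 8) / (q.1 - 3 / 16) *
      (max q.2 (1 / 8) - 1 / 8)) (Icc (1 / 4 : ℝ) (3 / 4) ×ˢ univ) :=
    continuousOn_const.add (h1.mul h3)
  have h7 : ContinuousOn (fun q : ℝ × ℝ => 1 + (1 - q.1) / (15 / 16 - q.1) *
      (max q.2 (1 / 8) - 1)) (Icc (1 / 4 : ℝ) (3 / 4) ×ˢ univ) :=
    continuousOn_const.add (h2.mul h4)
  have h8 : ContinuousOn (fun q : ℝ × ℝ => q.1) (Icc (1 / 4 : ℝ) (3 / 4) ×ˢ univ) :=
    continuousOn_fst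
  exact h5.add (((h6.inf h8).sup h7).sub continuousOn_const)

/-- The position of the window, for a front at `c`. -/
noncomputable def zc (c : ℝ) : ℝ := max (1 / 4) (min c (3 / 4))

theorem zc_mem (c : ℝ) : zc c ∈ Icc (1 / 4 : ℝ) (3 / 4) :=
  ⟨le_max_left _ _, max_le (by norm_num) (min_le_right _ _)⟩

theorem continuous_zc : Continuous zc := by
  unfold zc
  fun_prop

theorem zc_eq {c : ℝ} (h : c ∈ Icc (1 / 4 : ℝ) (3 / 4)) : zc c = c := by
  unfold zc
  rw [min_eq_left h.2, max_eq_right h.1]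

/-- The windows of the zip, a continuous family of self maps of `[-1, 1]` fixing the ends. -/
theorem wMap_zw (s : Set ℝ) : WMap s fun c => zw (zc c) where
  c := by
    have h1 : ContinuousOn (fun q : ℝ × ℝ => (zc q.1, q.2)) (s ×ˢ Icc (-1 : ℝ) 1) :=
      ((continuous_zc.comp continuous_fst).prodMk continuous_snd).continuousOn
    exact continuousOn_zw.comp h1 fun q _ => ⟨zc_mem _, mem_univ _⟩
  m := fun t _ y hy => zw_mem (zc_mem t).1 (zc_mem t).2 hy
  r := fun t _ => zw_one (zc_mem t).2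
  l := fun t _ => zw_left (zc_mem t).1 (zc_mem t).2 (by norm_num)

end Vale.Agent.P268.T
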